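import Mathlib

/-!
The deterministic assembly: real steps, digit expansion, reciprocals of complementary divisors
and merging of equal unit fractions.
-/

namespace Vale.Agent.Lib.P012c

open Finset

/-! ### Merging -/

/-- The Kraft potential of a multiset of positive integers. -/
noncomputable def kraft (M : Multiset ℕ) : ℚ :=
  (M.map fun n => ((1 : ℚ) / 2) ^ padicValNat 2 n).sum

lemma kraft_cons (n : ℕ) (M : Multiset ℕ) :
    kraft (n ::ₘ M) = ((1 : ℚ) / 2) ^ padicValNat 2 n + kraft M := by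
  simp [kraft]

lemma kraft_nonneg (M : Multiset ℕ) : 0 ≤ kraft M := by
  apply Multiset.sum_nonneg
  intro x hx
  obtain ⟨n, _, rfl⟩ := Multiset.mem_map.1 hx
  positivity

/-- Equal unit fractions can be merged as long as the Kraft potential is at most one. -/
theorem merge : ∀ (k : ℕ) (M : Multiset ℕ), M.card = k → (∀ n ∈ M, 0 < n) → kraft M ≤ 1 →
    ∃ S : Finset ℕ, (∀ n ∈ S, 0 < n) ∧ S.card ≤ k ∧
      ∑ n ∈ S, (1 : ℚ) / n = (M.map fun n : ℕ => (1 : ℚ) / n).sum := by
  intro k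
  induction k using Nat.strong_induction_on with
  | _ k ih =>
    intro M hk hpos hkr
    by_cases hnd : M.Nodup
    · refine ⟨M.toFinset, ?_, ?_, ?_⟩
      · intro n hn
        exact hpos n (Multiset.mem_toFinset.1 hn)
      · rw [Multiset.toFinset_card_of_nodup hnd, hk]
      · rw [Finset.sum_eq_multiset_sum, Multiset.toFinset_val, Multiset.dedup_eq_self.2 hnd]
    · rw [Multiset.nodup_iff_count_le_one] at hnd
      push Not at hnd
      obtain ⟨n, hn⟩ := hnd
      have h2 : Multiset.replicate 2 n ≤ M := Multiset.le_count_iff_replicate_le.1 hn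
      obtain ⟨M', rfl⟩ := Multiset.le_iff_exists_add.1 h2
      have hM : Multiset.replicate 2 n + M' = n ::ₘ n ::ₘ M' := by
        simp [Multiset.replicate_succ]
      rw [hM] at hk hpos hkr ⊢
      have hn0 : 0 < n := hpos n (by simp)
      have hk' : k = M'.card + 2 := by
        rw [← hk]
        simp
      rw [kraft_cons, kraft_cons] at hkr
      have hM'0 := kraft_nonneg M'
      by_cases h2n : 2 ∣ n
      · obtain ⟨m, rfl⟩ := h2n
        have hm0 : 0 < m := by omega
        haveI : Fact (Nat.Prime 2) := ⟨Nat.prime_two⟩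
        have hv : padicValNat 2 (2 * m) = padicValNat 2 m + 1 := by
          rw [padicValNat.mul (by norm_num) (by omega), padicValNat.self (by norm_num)]
          ring
        have hcard : (m ::ₘ M').card = k - 1 := by
          simp
          omega
        obtain ⟨S, hS, hSc, hSs⟩ := ih (k - 1) (by omega) (m ::ₘ M') hcard
          (by
            intro x hx
            rcases Multiset.mem_cons.1 hx with rfl | hx
            · exact hm0
            · exact hpos x (by simp [hx]))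
          (by
            rw [kraft_cons]
            rw [hv, pow_succ] at hkr
            linarith)
        refine ⟨S, hS, by omega, ?_⟩
        rw [hSs]
        simp only [Multiset.map_cons, Multiset.sum_cons]
        have hm' : (m : ℚ) ≠ 0 := by positivity
        push_cast
        field_simp
        ring
      · have hv : padicValNat 2 n = 0 := padicValNat.eq_zero_of_not_dvd h2n
        rw [hv] at hkr
        norm_num at hkr
        linarith

lemma kraft_le_one {E : ℕ} (M : Multiset ℕ) (hpos : ∀ n ∈ M, 0 < n ∧ 2 ^ E ∣ n)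
    (hc : M.card ≤ 2 ^ E) : kraft M ≤ 1 := by
  haveI : Fact (Nat.Prime 2) := ⟨Nat.prime_two⟩
  have h1 : ∀ x ∈ M.map (fun n => ((1 : ℚ) / 2) ^ padicValNat 2 n), x ≤ ((1 : ℚ) / 2) ^ E := by
    intro x hx
    obtain ⟨n, hn, rfl⟩ := Multiset.mem_map.1 hx
    obtain ⟨h0, hd⟩ := hpos n hn
    have : E ≤ padicValNat 2 n := (padicValNat_dvd_iff_le (by omega)).1 hd
    exact pow_le_pow_of_le_one (by norm_num) (by norm_num) this
  have h2 := Multiset.sum_le_card_nsmul _ _ h1
  simp only [Multiset.card_map, nsmul_eq_mul] at h2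
  have h3 : ((M.card : ℕ) : ℚ) ≤ 2 ^ E := by exact_mod_cast hc
  calc kraft M ≤ (M.card : ℚ) * ((1 : ℚ) / 2) ^ E := h2
    _ ≤ 2 ^ E * ((1 : ℚ) / 2) ^ E := by gcongr
    _ = 1 := by
      rw [← mul_pow]
      norm_num

/-! ### Digits -/

lemma sum_map_scale (g : ℕ) (T : List (ℕ × ℕ)) :
    ((T.map fun p => (p.1, g * p.2)).map fun p => ((p.1 : ℚ) / p.2)).sum
      = (T.map fun p => ((p.1 : ℚ) / p.2)).sum / g := by
  induction T with
  | nil => simp
  | cons x T ih =>
    simp only [List.map_cons, List.sum_cons]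
    rw [ih, add_div]
    congr 1
    push_cast
    rw [div_div, mul_comm]

/-- The mixed radix expansion with carries making all the digits coprime to `W`. -/
theorem digits {W L B Z : ℕ}
    (hwin : ∀ m, 1 ≤ m → ∃ R, 1 ≤ R ∧ R ≤ m ∧ m < R + L ∧ R.Coprime W)
    (hsmall : ∀ j, 1 ≤ j → j < L → j.Coprime W)
    (hL : 1 ≤ L) (hBZ : B * L ≤ Z) (hLZ : L ≤ Z) :
    ∀ (ρ : List ℕ) (z : ℚ), (∀ g ∈ ρ, 0 < g ∧ g ≤ B) → 0 ≤ z → z ≤ Z →
      (∃ A : ℕ, z * (ρ.prod : ℕ) = A) →
      ∃ T : List (ℕ × ℕ), T.length ≤ ρ.length + 2 ∧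
        (∀ p ∈ T, 1 ≤ p.1 ∧ p.1 ≤ Z ∧ p.1.Coprime W ∧ 0 < p.2) ∧
        z = (T.map fun p => ((p.1 : ℚ) / p.2)).sum := by
  intro ρ
  induction ρ with
  | nil =>
    intro z _ hz0 hzZ hA
    obtain ⟨A, hA⟩ := hA
    simp only [List.prod_nil, Nat.cast_one, mul_one] at hA
    subst hA
    have hAZ : A ≤ Z := by exact_mod_cast hzZ
    rcases Nat.eq_zero_or_pos A with rfl | hApos
    · exact ⟨[], by simp, by simp, by simp⟩
    · obtain ⟨R, hR1, hRm, hRL, hRc⟩ := hwin A hApos
      by_cases hj : A = R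
      · subst hj
        exact ⟨[(A, 1)], by simp, by simpa using ⟨hR1, hAZ, hRc⟩, by simp⟩
      · have hj1 : 1 ≤ A - R := by omega
        refine ⟨[(R, 1), (A - R, 1)], by simp, ?_, ?_⟩
        · intro p hp
          simp only [List.mem_cons, List.not_mem_nil, or_false] at hp
          rcases hp with rfl | rfl
          · exact ⟨hR1, by simp; omega, hRc, by simp⟩
          · refine ⟨hj1, by simp; omega, hsmall _ hj1 (by omega), by simp⟩
        · simp only [List.map_cons, List.map_nil, List.sum_cons, List.sum_nil]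
          rw [Nat.cast_sub hRm]
          simp
  | cons g ρ' ih =>
    intro z hg hz0 hzZ hA
    obtain ⟨A, hA⟩ := hA
    have hg0 : 0 < g := (hg g (by simp)).1
    have hgB : g ≤ B := (hg g (by simp)).2
    have hg' : ∀ x ∈ ρ', 0 < x ∧ x ≤ B := fun x hx => hg x (by simp [hx])
    have hgQ : (0 : ℚ) < g := by exact_mod_cast hg0
    have hgLZ : ((g * L : ℕ) : ℚ) ≤ Z := by
      exact_mod_cast (Nat.mul_le_mul_right L hgB).trans hBZ
    have hLQ : (1 : ℚ) ≤ L := by exact_mod_cast hL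
    simp only [List.prod_cons, Nat.cast_mul] at hA
    push_cast at hgLZ
    by_cases hz1 : z < 1
    · -- no digit here
      obtain ⟨T, hT, hT2, hT3⟩ := ih (g * z) hg' (by positivity)
        (by nlinarith) ⟨A, by rw [← hA]; ring⟩
      refine ⟨T.map fun p => (p.1, g * p.2), by simp; omega, ?_, ?_⟩
      · intro p hp
        obtain ⟨q, hq, rfl⟩ := List.mem_map.1 hp
        obtain ⟨a1, a2, a3, a4⟩ := hT2 q hq
        exact ⟨a1, a2, a3, Nat.mul_pos hg0 a4⟩
      · rw [sum_map_scale, ← hT3]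
        field_simp
    · push Not at hz1
      have hm1 : 1 ≤ ⌊z⌋₊ := Nat.le_floor (by simpa using hz1)
      obtain ⟨R, hR1, hRm, hRL, hRc⟩ := hwin _ hm1
      have hRz : (R : ℚ) ≤ z := by
        have h1 : (R : ℚ) ≤ (⌊z⌋₊ : ℚ) := by exact_mod_cast hRm
        exact h1.trans (Nat.floor_le hz0)
      have hzR : z < R + L := by
        have h1 : z < ⌊z⌋₊ + 1 := Nat.lt_floor_add_one z
        have h2 : ((⌊z⌋₊ + 1 : ℕ) : ℚ) ≤ ((R + L : ℕ) : ℚ) := by exact_mod_cast hRL
        push_cast at h2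
        linarith
      set w := z - R with hw
      have hw0 : 0 ≤ w := by rw [hw]; linarith
      have hwL : w < L := by rw [hw]; linarith
      set P : ℕ := ρ'.prod with hP
      have hRP : R * (g * P) ≤ A := by
        have h1 : ((R * (g * P) : ℕ) : ℚ) ≤ A := by
          rw [← hA]
          push_cast
          have : (0 : ℚ) ≤ (g : ℚ) * P := by positivity
          exact mul_le_mul_of_nonneg_right hRz this
        exact_mod_cast h1
      obtain ⟨T, hT, hT2, hT3⟩ := ih (g * w) hg' (by positivity)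
        (by nlinarith)
        ⟨A - R * (g * P), by
          rw [Nat.cast_sub hRP, ← hA, hw]
          push_cast
          ring⟩
      have hRZ : R ≤ Z := by
        have : (R : ℚ) ≤ Z := hRz.trans hzZ
        exact_mod_cast this
      refine ⟨(R, 1) :: T.map fun p => (p.1, g * p.2), by simp; omega, ?_, ?_⟩
      · intro p hp
        rcases List.mem_cons.1 hp with rfl | hp
        · exact ⟨hR1, hRZ, hRc, by simp⟩
        · obtain ⟨q, hq, rfl⟩ := List.mem_map.1 hp
          obtain ⟨a1, a2, a3, a4⟩ := hT2 q hq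
          exact ⟨a1, a2, a3, Nat.mul_pos hg0 a4⟩
      · simp only [List.map_cons, List.sum_cons]
        rw [sum_map_scale, ← hT3]
        have : (g : ℚ) ≠ 0 := hgQ.ne'
        simp only [Nat.cast_one, div_one]
        rw [hw]
        field_simp
        ring

/-! ### From digits to unit fractions -/

lemma sum_single (N₀ E c Q : ℕ) (hN₀ : 0 < N₀) (hc : 0 < c) (hQ : 0 < Q) :
    ∀ d : List ℕ, (∀ x ∈ d, x ∣ N₀) →
      (d.map fun x => (1 : ℚ) / ((2 ^ E * c * Q * (N₀ / x) : ℕ) : ℚ)).sum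
        = (d.sum : ℚ) / ((2 ^ E * c * Q * N₀ : ℕ) : ℚ) := by
  intro d
  induction d with
  | nil => simp
  | cons x d ih =>
    intro hd
    have hx : x ∣ N₀ := hd x (by simp)
    rw [List.map_cons, List.sum_cons, ih (fun y hy => hd y (by simp [hy])), List.sum_cons]
    obtain ⟨w, hw⟩ := hx
    have hw0 : 0 < w := by
      rcases Nat.eq_zero_or_pos w with rfl | h
      · simp at hw
        omega
      · exact h
    have hx0 : 0 < x := by
      rcases Nat.eq_zero_or_pos x with rfl | h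
      · simp at hw
        omega
      · exact h
    have hdiv : N₀ / x = w := by
      rw [hw]
      exact Nat.mul_div_cancel_left w hx0
    rw [hdiv, hw]
    push_cast
    have h1 : (x : ℚ) ≠ 0 := by positivity
    have h2 : (w : ℚ) ≠ 0 := by positivity
    have h3 : (c : ℚ) ≠ 0 := by positivity
    have h4 : (Q : ℚ) ≠ 0 := by positivity
    field_simp

theorem digits_to_multiset {N₀ W K X E : ℕ} (hN₀ : 0 < N₀)
    (hcov : ∀ R, 1 ≤ R → R ≤ X → R.Coprime W →
      ∃ d : List ℕ, (∀ x ∈ d, x ∣ N₀) ∧ d.length ≤ K ∧ 0 < d.sum ∧ R ∣ d.sum) :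
    ∀ T : List (ℕ × ℕ), (∀ p ∈ T, 1 ≤ p.1 ∧ p.1 ≤ X ∧ p.1.Coprime W ∧ 0 < p.2) →
      ∃ M : Multiset ℕ, M.card ≤ K * T.length ∧ (∀ n ∈ M, 0 < n ∧ 2 ^ E ∣ n) ∧
        (M.map fun n : ℕ => (1 : ℚ) / n).sum
          = (T.map fun p => ((p.1 : ℚ) / p.2)).sum / ((2 ^ E * N₀ : ℕ) : ℚ) := by
  intro T
  induction T with
  | nil =>
    intro _
    exact ⟨0, by simp, by simp, by simp⟩
  | cons p T ih =>
    intro hT
    obtain ⟨M, hMc, hMp, hMs⟩ := ih (fun q hq => hT q (by simp [hq]))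
    obtain ⟨hp1, hp2, hp3, hp4⟩ := hT p (by simp)
    obtain ⟨d, hd1, hd2, hd3, c, hc⟩ := hcov p.1 hp1 hp2 hp3
    have hc0 : 0 < c := by
      rcases Nat.eq_zero_or_pos c with rfl | h
      · simp at hc
        omega
      · exact h
    set M₁ : Multiset ℕ := ((d.map fun x => 2 ^ E * c * p.2 * (N₀ / x) : List ℕ) : Multiset ℕ)
      with hM₁
    refine ⟨M₁ + M, ?_, ?_, ?_⟩
    · rw [Multiset.card_add]
      have : M₁.card = d.length := by
        rw [hM₁]
        simp
      rw [this, List.length_cons, Nat.mul_succ]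
      nlinarith
    · intro n hn
      rcases Multiset.mem_add.1 hn with hn | hn
      · rw [hM₁] at hn
        have hn' : n ∈ d.map fun x => 2 ^ E * c * p.2 * (N₀ / x) := by simpa using hn
        obtain ⟨x, hx, rfl⟩ := List.mem_map.1 hn'
        have hxd := hd1 x hx
        have hx0 : 0 < x := Nat.pos_of_dvd_of_pos hxd hN₀
        have : 0 < N₀ / x := Nat.div_pos (Nat.le_of_dvd hN₀ hxd) hx0
        refine ⟨by positivity, ?_⟩
        exact ⟨c * p.2 * (N₀ / x), by ring⟩
      · exact hMp n hn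
    · rw [Multiset.map_add, Multiset.sum_add, hMs, hM₁]
      have h1 := sum_single N₀ E c p.2 hN₀ hc0 hp4 d hd1
      have h2 : ((((d.map fun x => 2 ^ E * c * p.2 * (N₀ / x) : List ℕ) : Multiset ℕ).map
          fun n : ℕ => (1 : ℚ) / n).sum)
          = (d.map fun x => (1 : ℚ) / ((2 ^ E * c * p.2 * (N₀ / x) : ℕ) : ℚ)).sum := by
        simp [Multiset.map_coe, List.map_map, Function.comp_def]
      rw [h2, h1, hc]
      simp only [List.map_cons, List.sum_cons]
      have hp0 : (p.2 : ℚ) ≠ 0 := by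
        have := hp4
        positivity
      have hc0' : (c : ℚ) ≠ 0 := by positivity
      have hN0' : (N₀ : ℚ) ≠ 0 := by positivity
      push_cast
      field_simp

/-! ### Real steps -/

/-- Every value between `1` and `N` is within a factor `Y` of a divisor of the `Y`-smooth `N`. -/
lemma dense_divisor {Y : ℕ} (hY : 1 ≤ Y) : ∀ N : ℕ, 0 < N → (∀ p, p.Prime → p ∣ N → p ≤ Y) →
    ∀ v : ℚ, 1 ≤ v → v ≤ N → ∃ e : ℕ, e ∣ N ∧ (e : ℚ) ≤ v ∧ v ≤ e * Y := by
  intro N
  induction N using Nat.strong_induction_on with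
  | _ N ih =>
    intro hN hs v hv1 hvN
    by_cases hN1 : N = 1
    · subst hN1
      refine ⟨1, dvd_rfl, by simpa using hv1, ?_⟩
      have : (1 : ℚ) ≤ Y := by exact_mod_cast hY
      simp at hvN ⊢
      linarith
    · set p := N.minFac with hp
      have hpp : p.Prime := Nat.minFac_prime hN1
      obtain ⟨N', hN'⟩ : p ∣ N := Nat.minFac_dvd N
      have hN'0 : 0 < N' := by
        rcases Nat.eq_zero_or_pos N' with rfl | h
        · simp at hN'
          omega
        · exact h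
      have hlt : N' < N := by
        rw [hN']
        exact lt_mul_of_one_lt_left hN'0 hpp.one_lt
      have hpY : p ≤ Y := hs p hpp (Nat.minFac_dvd N)
      by_cases hv : v ≤ N'
      · obtain ⟨e, he, h1, h2⟩ := ih N' hlt hN'0
          (fun q hq hd => hs q hq (hd.trans ⟨p, by rw [hN']; ring⟩)) v hv1 hv
        exact ⟨e, he.trans ⟨p, by rw [hN']; ring⟩, h1, h2⟩
      · push Not at hv
        refine ⟨N', ⟨p, by rw [hN']; ring⟩, hv.le, ?_⟩
        have h1 : (N : ℚ) = p * N' := by rw [hN']; push_cast; ring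
        have h2 : (p : ℚ) ≤ Y := by exact_mod_cast hpY
        have h3 : (0 : ℚ) ≤ N' := by positivity
        nlinarith

/-- The state of the real phase. -/
structure St (r₀ : ℚ) (N B : ℕ) (r : ℚ) (ρ : List ℕ) (U : Finset ℕ) : Prop where
  r_nonneg : 0 ≤ r
  r_lt : r < 1
  sum_eq : r₀ = ∑ n ∈ U, (1 : ℚ) / n + r
  U_ge : ∀ n ∈ U, 2 ≤ n
  U_lt : ∀ n ∈ U, (n : ℚ) * r < 1
  int : ∃ A : ℕ, r * N * (ρ.prod : ℕ) = A
  rad : ∀ g ∈ ρ, 0 < g ∧ g ≤ B
  len : ρ.length = U.card + 1

lemma St.step {r₀ : ℚ} {N B : ℕ} {r : ℚ} {ρ : List ℕ} {U : Finset ℕ} (h : St r₀ N B r ρ U)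
    {e g : ℕ} (hr : 0 < r) (hN : 0 < N) (he : e ∣ N) (hg0 : 0 < g) (hgB : g ≤ B)
    (h1 : 1 ≤ (e : ℚ) * g * r) (h2 : (e : ℚ) * (g - 1) * r < 1) (h3 : (e : ℚ) * r ≤ 1) :
    ∃ r' U', St r₀ N B r' (g :: ρ) U' ∧ U'.card = U.card + 1 ∧ r' * g < r := by
  have he0 : 0 < e := Nat.pos_of_dvd_of_pos he hN
  have heQ : (0 : ℚ) < e := by exact_mod_cast he0
  have hgQ : (0 : ℚ) < g := by exact_mod_cast hg0
  have hnQ : (0 : ℚ) < (e : ℚ) * g := by positivity
  set r' := r - 1 / ((e : ℚ) * g) with hr'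
  have hinv : (1 : ℚ) / ((e : ℚ) * g) ≤ r := by
    rw [div_le_iff₀ hnQ]
    linarith
  have hr'0 : 0 ≤ r' := by rw [hr']; linarith
  have hinv0 : 0 < (1 : ℚ) / ((e : ℚ) * g) := by positivity
  have hr'r : r' ≤ r := by rw [hr']; linarith
  have hnr' : (e : ℚ) * g * r' = (e : ℚ) * g * r - 1 := by
    rw [hr']
    field_simp
  have hnot : e * g ∉ U := by
    intro hmem
    have := h.U_lt _ hmem
    push_cast at this
    linarith
  refine ⟨r', insert (e * g) U, ?_, by rw [Finset.card_insert_of_notMem hnot], ?_⟩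
  · refine ⟨hr'0, lt_of_le_of_lt hr'r h.r_lt, ?_, ?_, ?_, ?_, ?_, ?_⟩
    · rw [Finset.sum_insert hnot, h.sum_eq, hr']
      push_cast
      ring
    · intro n hn
      rcases Finset.mem_insert.1 hn with rfl | hn
      · have h4 : (1 : ℚ) < (e : ℚ) * g := by
          have := h.r_lt
          nlinarith
        have h5 : 1 < e * g := by exact_mod_cast h4
        omega
      · exact h.U_ge n hn
    · intro n hn
      rcases Finset.mem_insert.1 hn with rfl | hn
      · push_cast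
        rw [hnr']
        nlinarith
      · have := h.U_lt n hn
        have h6 : (0 : ℚ) ≤ n := by positivity
        nlinarith
    · obtain ⟨A, hA⟩ := h.int
      set P : ℕ := ρ.prod with hP
      have hle : (N / e) * P ≤ A * g := by
        have h7 : (((N / e) * P : ℕ) : ℚ) ≤ ((A * g : ℕ) : ℚ) := by
          push_cast
          rw [← hA, Nat.cast_div he heQ.ne']
          have hNQ : (0 : ℚ) ≤ N := by positivity
          have hPQ : (0 : ℚ) ≤ P := by positivity
          have h8 : (1 : ℚ) / e ≤ r * g := by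
            rw [div_le_iff₀ heQ]
            linarith
          calc (N : ℚ) / e * P = (1 / e) * (N * P) := by ring
            _ ≤ (r * g) * (N * P) := by gcongr
            _ = r * N * P * g := by ring
        exact_mod_cast h7
      refine ⟨A * g - (N / e) * P, ?_⟩
      rw [Nat.cast_sub hle, List.prod_cons, ← hP]
      push_cast
      rw [← hA, Nat.cast_div he heQ.ne', hr']
      field_simp
    · intro x hx
      rcases List.mem_cons.1 hx with rfl | hx
      · exact ⟨hg0, hgB⟩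
      · exact h.rad x hx
    · rw [List.length_cons, h.len, Finset.card_insert_of_notMem hnot]
  · have h9 : r' * g = r * g - 1 / e := by
      rw [hr']
      field_simp
    rw [h9]
    have h10 : r * (g - 1) < 1 / e := by
      rw [lt_div_iff₀ heQ]
      linarith
    linarith

/-- One step with `e = 1`. -/
lemma St.stepA {r₀ : ℚ} {N B : ℕ} {r : ℚ} {ρ : List ℕ} {U : Finset ℕ} (h : St r₀ N B r ρ U)
    {G : ℕ} (hN : 0 < N) (hGB : G ≤ B) (hr : 0 < r) (hrG : 1 ≤ r * G) :
    ∃ r' U' g, St r₀ N B r' (g :: ρ) U' ∧ U'.card = U.card + 1 ∧ r' < r * r ∧ 2 ≤ g ∧ r' * g < r := by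
  have hx : 0 < 1 / r := by positivity
  set g := ⌈1 / r⌉₊ with hg
  have hg1 : 1 / r ≤ g := Nat.le_ceil _
  have hg2 : (g : ℚ) < 1 / r + 1 := Nat.ceil_lt_add_one hx.le
  have hg0 : 0 < g := Nat.ceil_pos.2 hx
  have hg3 : g ≤ G := by
    apply Nat.ceil_le.2
    rw [div_le_iff₀ hr]
    linarith
  have hgr : 1 ≤ (g : ℚ) * r := by
    rwa [div_le_iff₀ hr] at hg1
  have hgr2 : ((g : ℚ) - 1) * r < 1 := by
    have h1 : (g : ℚ) - 1 < 1 / r := by linarith
    rwa [lt_div_iff₀ hr] at h1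
  have hg2' : 2 ≤ g := by
    have h1 : (1 : ℚ) < 1 / r := by
      rw [lt_div_iff₀ hr]
      linarith [h.r_lt]
    have h2 : (1 : ℚ) < g := lt_of_lt_of_le h1 hg1
    have h3 : 1 < g := by exact_mod_cast h2
    omega
  obtain ⟨r', U', h1, h2, h3⟩ := h.step (e := 1) (g := g) hr hN (one_dvd N) hg0
    (hg3.trans hGB) (by simpa using hgr) (by simpa using hgr2)
    (by simpa using h.r_lt.le)
  refine ⟨r', U', g, h1, h2, ?_, hg2', h3⟩
  have hr'0 := h1.r_nonneg
  have h4 : r' ≤ r' * ((g : ℚ) * r) := le_mul_of_one_le_right hr'0 hgr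
  have h5 : r' * ((g : ℚ) * r) = (r' * g) * r := by ring
  have h6 : (r' * g) * r < r * r := mul_lt_mul_of_pos_right h3 hr
  linarith

lemma phase1 {r₀ : ℚ} {N B G : ℕ} (hN : 0 < N) (hGB : G ≤ B) :
    ∀ (t s : ℕ) (r : ℚ) (ρ : List ℕ) (U : Finset ℕ), St r₀ N B r ρ U →
      r < ((1 : ℚ) / 2) ^ (2 ^ s) → G ≤ 2 ^ (2 ^ (s + t)) →
      ∃ r' ρ' U', St r₀ N B r' ρ' U' ∧ U'.card ≤ U.card + t ∧ r' * G < 1 := by
  intro t
  induction t with
  | zero =>
    intro s r ρ U h hr hG
    refine ⟨r, ρ, U, h, by simp, ?_⟩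
    have hG' : (G : ℚ) ≤ 2 ^ (2 ^ s) := by
      have : G ≤ 2 ^ (2 ^ s) := by simpa using hG
      exact_mod_cast this
    have h0 := h.r_nonneg
    have hp : (0 : ℚ) < 2 ^ (2 ^ s) := by positivity
    have he : ((1 : ℚ) / 2) ^ (2 ^ s) * 2 ^ (2 ^ s) = 1 := by
      rw [← mul_pow]
      norm_num
    calc r * G ≤ r * 2 ^ (2 ^ s) := by gcongr
      _ < ((1 : ℚ) / 2) ^ (2 ^ s) * 2 ^ (2 ^ s) := by gcongr
      _ = 1 := he
  | succ t ih =>
    intro s r ρ U h hr hG
    by_cases hrG : r * G < 1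
    · exact ⟨r, ρ, U, h, by omega, hrG⟩
    · push Not at hrG
      have hr0 : 0 < r := by
        rcases h.r_nonneg.lt_or_eq with h0 | h0
        · exact h0
        · rw [← h0] at hrG
          norm_num at hrG
      obtain ⟨r', U', g, h1, h2, h3, _, _⟩ := h.stepA hN hGB hr0 hrG
      have h4 : r' < ((1 : ℚ) / 2) ^ (2 ^ (s + 1)) := by
        have h5 : ((1 : ℚ) / 2) ^ (2 ^ (s + 1)) = ((1 : ℚ) / 2) ^ (2 ^ s) * ((1 : ℚ) / 2) ^ (2 ^ s) := by
          rw [← pow_add]
          congr 1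
          rw [pow_succ]
          ring
        rw [h5]
        have h6 : r * r < ((1 : ℚ) / 2) ^ (2 ^ s) * ((1 : ℚ) / 2) ^ (2 ^ s) := by
          apply mul_lt_mul'' hr hr hr0.le hr0.le
        linarith
      obtain ⟨r'', ρ'', U'', h7, h8, h9⟩ := ih (s + 1) r' (g :: ρ) U' h1 h4
        (by
          have : s + 1 + t = s + (t + 1) := by ring
          rw [this]
          exact hG)
      exact ⟨r'', ρ'', U'', h7, by omega, h9⟩

lemma phase1_start {r₀ : ℚ} {N B G : ℕ} (hN : 0 < N) (hGB : G ≤ B) (t : ℕ)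
    (hG : G ≤ 2 ^ (2 ^ t)) {r : ℚ} {ρ : List ℕ} {U : Finset ℕ} (h : St r₀ N B r ρ U) :
    ∃ r' ρ' U', St r₀ N B r' ρ' U' ∧ U'.card ≤ U.card + (t + 1) ∧ r' * G < 1 := by
  by_cases hrG : r * G < 1
  · exact ⟨r, ρ, U, h, by omega, hrG⟩
  · push Not at hrG
    have hr0 : 0 < r := by
      rcases h.r_nonneg.lt_or_eq with h0 | h0
      · exact h0
      · rw [← h0] at hrG
        norm_num at hrG
    obtain ⟨r', U', g, h1, h2, _, h3, h4⟩ := h.stepA hN hGB hr0 hrG
    have h5 : r' < ((1 : ℚ) / 2) ^ (2 ^ 0) := by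
      have h6 : (2 : ℚ) ≤ g := by exact_mod_cast h3
      have h7 := h1.r_nonneg
      have h8 := h.r_lt
      norm_num
      nlinarith
    obtain ⟨r'', ρ'', U'', h7, h8, h9⟩ := phase1 hN hGB t 0 r' (g :: ρ) U' h1 h5
      (by simpa using hG)
    exact ⟨r'', ρ'', U'', h7, by omega, h9⟩

lemma phase2 {r₀ : ℚ} {N B G Y X : ℕ} (hN : 0 < N)
    (hs : ∀ p, p.Prime → p ∣ N → p ≤ Y) (hY : 1 ≤ Y) (hG : 1 ≤ G) (hGY : G * Y ≤ B) (hX : 1 ≤ X) :
    ∀ (t s : ℕ) (r : ℚ) (ρ : List ℕ) (U : Finset ℕ), St r₀ N B r ρ U → 1 ≤ s →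
      r * (G : ℚ) ^ s < 1 → (N : ℚ) ≤ (G : ℚ) ^ (s + t) * X →
      ∃ r' ρ' U', St r₀ N B r' ρ' U' ∧ U'.card ≤ U.card + t ∧ r' * N ≤ X := by
  have hGQ : (1 : ℚ) ≤ G := by exact_mod_cast hG
  have hXQ : (1 : ℚ) ≤ X := by exact_mod_cast hX
  have hYQ : (1 : ℚ) ≤ Y := by exact_mod_cast hY
  intro t
  induction t with
  | zero =>
    intro s r ρ U h _ hr hN'
    refine ⟨r, ρ, U, h, by simp, ?_⟩
    have h0 := h.r_nonneg
    simp only [add_zero] at hN'
    have hXp : (0 : ℚ) < X := by linarith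
    calc r * N ≤ r * ((G : ℚ) ^ s * X) := by gcongr
      _ = (r * (G : ℚ) ^ s) * X := by ring
      _ ≤ 1 * X := by gcongr
      _ = X := by ring
  | succ t ih =>
    intro s r ρ U h hs1 hr hN'
    by_cases hstop : r * N ≤ X
    · exact ⟨r, ρ, U, h, by omega, hstop⟩
    · push Not at hstop
      have hr0 : 0 < r := by
        rcases h.r_nonneg.lt_or_eq with h0 | h0
        · exact h0
        · rw [← h0] at hstop
          have hXp : (0 : ℚ) < X := by linarith
          norm_num at hstop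
          linarith
      have hGpos : (0 : ℚ) < G := by linarith
      -- `r G < 1`
      have hrG : r * G < 1 := by
        have h1 : (G : ℚ) ≤ (G : ℚ) ^ s := by
          calc (G : ℚ) = (G : ℚ) ^ 1 := by ring
            _ ≤ (G : ℚ) ^ s := pow_le_pow_right₀ hGQ hs1
        nlinarith
      set v := 1 / (r * G) with hv
      have hrGpos : 0 < r * G := by positivity
      have hv1 : 1 ≤ v := by
        rw [hv, le_div_iff₀ hrGpos]
        linarith
      have hvN : v ≤ N := by
        rw [hv, div_le_iff₀ hrGpos]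
        have hNpos : (0 : ℚ) ≤ N := by positivity
        have h2 : r * N * G ≥ 1 * 1 := by
          apply mul_le_mul (by linarith) hGQ (by norm_num) (by positivity)
        nlinarith
      obtain ⟨e, he, he1, he2⟩ := dense_divisor hY N hN hs v hv1 hvN
      have he0 : 0 < e := Nat.pos_of_dvd_of_pos he hN
      have heQ : (0 : ℚ) < e := by exact_mod_cast he0
      set g := ⌈1 / (e * r)⌉₊ with hg
      have herp : 0 < (e : ℚ) * r := by positivity
      have hxp : 0 < 1 / ((e : ℚ) * r) := by positivity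
      have hg1 : 1 / ((e : ℚ) * r) ≤ g := Nat.le_ceil _
      have hg2 : (g : ℚ) < 1 / ((e : ℚ) * r) + 1 := Nat.ceil_lt_add_one hxp.le
      have hg0 : 0 < g := Nat.ceil_pos.2 hxp
      have hvG : v * (r * G) = 1 := by
        rw [hv]
        field_simp
      have hgGY : g ≤ G * Y := by
        apply Nat.ceil_le.2
        rw [div_le_iff₀ herp]
        push_cast
        -- `1 = v r G ≤ e Y r G`
        have h3 : v * (r * G) ≤ (e * Y) * (r * G) := by gcongr
        nlinarith
      have hGg : (G : ℚ) ≤ g := by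
        refine le_trans ?_ hg1
        rw [le_div_iff₀ herp]
        have h3 : (e : ℚ) * (r * G) ≤ v * (r * G) := by gcongr
        nlinarith
      have h1' : 1 ≤ (e : ℚ) * g * r := by
        rw [div_le_iff₀ herp] at hg1
        nlinarith
      have h2' : (e : ℚ) * (g - 1) * r < 1 := by
        have h3 : (g : ℚ) - 1 < 1 / ((e : ℚ) * r) := by linarith
        rw [lt_div_iff₀ herp] at h3
        nlinarith
      have h3' : (e : ℚ) * r ≤ 1 := by
        have h3 : (e : ℚ) * (r * G) ≤ v * (r * G) := by gcongr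
        rw [hvG] at h3
        nlinarith
      obtain ⟨r', U', h4, h5, h6⟩ := h.step hr0 hN he hg0 (hgGY.trans hGY) h1' h2' h3'
      have hr'0 := h4.r_nonneg
      have h7 : r' * (G : ℚ) ^ (s + 1) < 1 := by
        have hpos : (0 : ℚ) < (G : ℚ) ^ s := by positivity
        calc r' * (G : ℚ) ^ (s + 1) = (r' * G) * (G : ℚ) ^ s := by ring
          _ ≤ (r' * g) * (G : ℚ) ^ s := by gcongr
          _ < r * (G : ℚ) ^ s := by gcongr
          _ < 1 := hr
      obtain ⟨r'', ρ'', U'', h8, h9, h10⟩ := ih (s + 1) r' (g :: ρ) U' h4 (by omega) h7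
        (by
          have : s + 1 + t = s + (t + 1) := by ring
          rw [this]
          exact hN')
      exact ⟨r'', ρ'', U'', h8, by omega, h10⟩

/-! ### The assembly -/

/-- The deterministic assembly. -/
theorem assembly {N₀ W K L X Y G E t₁ t₂ a b : ℕ}
    (hN₀ : 0 < N₀) (hsmooth : ∀ p, p.Prime → p ∣ N₀ → p ≤ Y) (hY : 2 ≤ Y)
    (hcov : ∀ R, 1 ≤ R → R ≤ X → R.Coprime W →
      ∃ d : List ℕ, (∀ x ∈ d, x ∣ N₀) ∧ d.length ≤ K ∧ 0 < d.sum ∧ R ∣ d.sum)
    (hwin : ∀ m, 1 ≤ m → ∃ R, 1 ≤ R ∧ R ≤ m ∧ m < R + L ∧ R.Coprime W)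
    (hsmall : ∀ j, 1 ≤ j → j < L → j.Coprime W)
    (hL : 1 ≤ L) (hG : 1 ≤ G)
    (hbX : b * L ≤ X) (hGX : G * Y * L ≤ X)
    (ht₁ : G ≤ 2 ^ 2 ^ t₁)
    (ht₂ : 2 ^ E * N₀ ≤ G ^ (1 + t₂) * X)
    (hE : K * (t₁ + t₂ + 4) ≤ 2 ^ E)
    (ha : 0 < a) (hab : a < b) :
    ∃ S : Finset ℕ, (∀ n ∈ S, 2 ≤ n) ∧ S.card ≤ (t₁ + t₂ + 1) + K * (t₁ + t₂ + 4) ∧
      ∑ n ∈ S, (1 : ℚ) / n = a / b := by
  set N := 2 ^ E * N₀ with hN
  have hNpos : 0 < N := by positivity
  have hb : 0 < b := by omega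
  have hbQ : (0 : ℚ) < b := by exact_mod_cast hb
  have hsN : ∀ p, p.Prime → p ∣ N → p ≤ Y := by
    intro p hp hd
    rcases (Nat.Prime.dvd_mul hp).1 hd with h | h
    · have := (Nat.prime_dvd_prime_iff_eq hp Nat.prime_two).1 (hp.dvd_of_dvd_pow h)
      omega
    · exact hsmooth p hp h
  set B := max b (G * Y) with hB
  have hBX : B * L ≤ X := by
    rcases le_total b (G * Y) with h | h
    · rw [hB, max_eq_right h]
      exact hGX
    · rw [hB, max_eq_left h]
      exact hbX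
  have hbB : b ≤ B := le_max_left _ _
  have hGYB : G * Y ≤ B := le_max_right _ _
  have hGB : G ≤ B := by
    refine le_trans ?_ hGYB
    exact Nat.le_mul_of_pos_right _ (by omega)
  have hLX : L ≤ X := by
    have : 1 ≤ B := by omega
    nlinarith
  have hX1 : 1 ≤ X := by omega
  -- the initial state
  have hr₀0 : (0 : ℚ) ≤ (a : ℚ) / b := by positivity
  have hr₀1 : (a : ℚ) / b < 1 := by
    rw [div_lt_one hbQ]
    exact_mod_cast hab
  have hSt0 : St ((a : ℚ) / b) N B ((a : ℚ) / b) [b] ∅ := by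
    refine ⟨hr₀0, hr₀1, by simp, by simp, by simp, ⟨a * N, ?_⟩, ?_, by simp⟩
    · simp only [List.prod_cons, List.prod_nil, mul_one]
      push_cast
      field_simp
    · intro g hg
      simp only [List.mem_singleton] at hg
      subst hg
      exact ⟨hb, hbB⟩
  obtain ⟨r₁, ρ₁, U₁, hSt1, hc1, hr1⟩ := phase1_start hNpos hGB t₁ ht₁ hSt0
  have hrs : r₁ * (G : ℚ) ^ 1 < 1 := by simpa using hr1
  obtain ⟨r₂, ρ₂, U₂, hSt2, hc2, hr2⟩ := phase2 (X := X) hNpos hsN (by omega) hG hGYB hX1 t₂ 1 r₁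
    ρ₁ U₁ hSt1 le_rfl hrs (by exact_mod_cast ht₂)
  -- the digits of `z = r₂ * N`
  set z := r₂ * N with hz
  have hz0 : 0 ≤ z := mul_nonneg hSt2.r_nonneg (by positivity)
  obtain ⟨T, hT1, hT2, hT3⟩ := digits hwin hsmall hL hBX hLX ρ₂ z hSt2.rad hz0 hr2 hSt2.int
  have hlen : T.length ≤ t₁ + t₂ + 4 := by
    have := hSt2.len
    simp at hc1
    omega
  obtain ⟨M, hMc, hMp, hMs⟩ := digits_to_multiset (E := E) hN₀ hcov T hT2
  have hMcard : M.card ≤ K * (t₁ + t₂ + 4) := hMc.trans (Nat.mul_le_mul_left _ hlen)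
  have hkr : kraft M ≤ 1 := kraft_le_one M hMp (hMcard.trans hE)
  obtain ⟨S, hS1, hS2, hS3⟩ := merge _ M rfl (fun n hn => (hMp n hn).1) hkr
  have hNQ : (N : ℚ) ≠ 0 := by positivity
  have hSr : ∑ n ∈ S, (1 : ℚ) / n = r₂ := by
    rw [hS3, hMs, ← hT3, hz, ← hN]
    field_simp
  -- every term of `S` has `1 / n ≤ r₂`
  have hS4 : ∀ n ∈ S, 1 ≤ (n : ℚ) * r₂ := by
    intro n hn
    have hn0 := hS1 n hn
    have hnQ : (0 : ℚ) < n := by exact_mod_cast hn0
    have h1 : (1 : ℚ) / n ≤ ∑ m ∈ S, (1 : ℚ) / m :=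
      Finset.single_le_sum (f := fun m : ℕ => (1 : ℚ) / m) (fun i _ => by positivity) hn
    rw [hSr, div_le_iff₀ hnQ] at h1
    linarith
  have hdisj : Disjoint U₂ S := by
    rw [Finset.disjoint_left]
    intro n h1 h2
    have h3 := hSt2.U_lt n h1
    have h4 := hS4 n h2
    linarith
  refine ⟨U₂ ∪ S, ?_, ?_, ?_⟩
  · intro n hn
    rcases Finset.mem_union.1 hn with h | h
    · exact hSt2.U_ge n h
    · have h1 := hS4 n h
      have h2 := hSt2.r_lt
      have h3 := hSt2.r_nonneg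
      have h4 : (1 : ℚ) < n := by
        by_contra hcon
        push Not at hcon
        have h5 : (n : ℚ) * r₂ ≤ 1 * r₂ := mul_le_mul_of_nonneg_right hcon h3
        linarith
      have h5 : 1 < n := by exact_mod_cast h4
      omega
  · rw [Finset.card_union_of_disjoint hdisj]
    have : U₂.card ≤ t₁ + t₂ + 1 := by
      simp at hc1
      omega
    omega
  · rw [Finset.sum_union hdisj, hSr]
    exact hSt2.sum_eq.symm

end Vale.Agent.Lib.P012c
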