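import Mathlib

/-!
The first moment: for random tuples of primes, few pairs of sub-products collide modulo `a`.
-/

namespace Vale.Agent.Lib.P012c

open Finset

/-- The number of tuples with a prescribed product and prescribed coordinates off `F`. -/
lemma count_tuples {n : ℕ} (F : Finset (Fin n)) (x : ℕ) (Q : Finset (Fin n → ℕ))
    (hQ : ∀ p ∈ Q, ∀ i ∈ F, (p i).Prime) (hprod : ∀ p ∈ Q, ∏ i ∈ F, p i = x)
    (hagree : ∀ p ∈ Q, ∀ p' ∈ Q, ∀ i, i ∉ F → p i = p' i) :
    Q.card ≤ F.card.factorial := by
  classical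
  rcases Q.eq_empty_or_nonempty with rfl | ⟨p0, hp0⟩
  · simp
  set L := Nat.primeFactorsList x with hL
  have hperm : ∀ p ∈ Q, (F.toList.map p).Perm L := by
    intro p hp
    apply Nat.primeFactorsList_unique
    · rw [Finset.prod_map_toList]
      exact hprod p hp
    · intro q hq
      obtain ⟨i, hi, rfl⟩ := List.mem_map.1 hq
      exact hQ p hp i (Finset.mem_toList.1 hi)
  have hlen : L.length = F.card := by
    rw [← (hperm p0 hp0).length_eq]
    simp
  have h1 : Q.card ≤ L.permutations.toFinset.card := by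
    apply Finset.card_le_card_of_injOn (fun p => F.toList.map p)
    · intro p hp
      simp only [List.coe_toFinset, Set.mem_ofPred_eq, List.mem_permutations]
      exact hperm p hp
    · intro p hp p' hp' e
      funext i
      by_cases hi : i ∈ F
      · exact (List.map_inj_left.1 e) i (Finset.mem_toList.2 hi)
      · exact hagree p hp p' hp' i hi
  calc Q.card ≤ L.permutations.toFinset.card := h1
    _ ≤ L.permutations.length := List.toFinset_card_le _
    _ = F.card.factorial := by rw [List.length_permutations, hlen]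

lemma card_residue_le (V : Finset ℕ) (a M : ℕ) (hV : ∀ x ∈ V, x ≤ M)
    (hc : ∀ x ∈ V, ∀ y ∈ V, x ≡ y [MOD a]) : V.card ≤ M / a + 1 := by
  have h := Finset.card_le_card_of_injOn (s := V) (t := range (M / a + 1)) (fun x => x / a)
    (by
      intro x hx
      simp only [Finset.coe_range, Set.mem_Iio]
      exact Nat.lt_succ_of_le (Nat.div_le_div_right (hV x hx)))
    (by
      intro x hx y hy e
      have e' : x / a = y / a := e
      have h1 : x % a = y % a := hc x hx y hy
      rw [← Nat.mod_add_div x a, ← Nat.mod_add_div y a, h1, e'])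
  simpa using h

/-- The key count: a family of tuples that is confined to one residue class. -/
lemma card_le_of_congr {n a Y : ℕ} (U : Finset ℕ) (hprime : ∀ p ∈ U, p.Prime) (hY : ∀ p ∈ U, p ≤ Y)
    (ha : 0 < a) (F : Finset (Fin n)) (G : Finset (Fin n → ℕ))
    (hG : G ⊆ Fintype.piFinset (fun _ : Fin n => U))
    (hcong : ∀ p ∈ G, ∀ p' ∈ G, (∀ i, i ∉ F → p i = p' i) →
      ∏ i ∈ F, p i ≡ ∏ i ∈ F, p' i [MOD a]) :
    G.card ≤ (F.card.factorial * (Y ^ F.card / a + 1)) * U.card ^ (n - F.card) := by
  classical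
  set ρ : (Fin n → ℕ) → (Fin n → ℕ) := fun p i => if i ∈ F then 0 else p i with hρ
  set T : Finset (Fin n → ℕ) := Fintype.piFinset (fun i => if i ∈ F then {0} else U) with hT
  have hTcard : T.card = U.card ^ (n - F.card) := by
    rw [hT, Fintype.card_piFinset]
    have e : ∀ i : Fin n, (if i ∈ F then ({0} : Finset ℕ) else U).card =
        if i ∈ F then 1 else U.card := by
      intro i
      split_ifs <;> simp
    simp only [e]
    rw [Finset.prod_ite]
    simp only [Finset.prod_const_one, one_mul, Finset.prod_const]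
    congr 1
    have h1 : (Finset.univ.filter (fun i : Fin n => ¬ i ∈ F)) = Fᶜ := by
      ext i
      simp
    rw [h1, Finset.card_compl]
    simp
  have hmaps : ∀ p ∈ G, ρ p ∈ T := by
    intro p hp
    rw [hT, Fintype.mem_piFinset]
    intro i
    have hpi := Fintype.mem_piFinset.1 (hG hp) i
    simp only [hρ]
    split_ifs <;> simp [hpi]
  have h1 := Finset.card_le_mul_card_image_of_maps_to hmaps
    (F.card.factorial * (Y ^ F.card / a + 1)) (by
      intro c _
      set Gc := G.filter (fun p => ρ p = c) with hGc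
      have hagree : ∀ p ∈ Gc, ∀ p' ∈ Gc, ∀ i, i ∉ F → p i = p' i := by
        intro p hp p' hp' i hi
        have h2 := (Finset.mem_filter.1 hp).2
        have h3 := (Finset.mem_filter.1 hp').2
        have h4 := congrFun (h2.trans h3.symm) i
        simpa [hρ, hi] using h4
      have h2 := Finset.card_le_mul_card_image (f := fun p : Fin n → ℕ => ∏ i ∈ F, p i) Gc
        F.card.factorial (by
          intro x hx
          apply count_tuples F x
          · intro p hp i _
            have hp1 := (Finset.mem_filter.1 (Finset.mem_filter.1 hp).1).1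
            exact hprime _ (Fintype.mem_piFinset.1 (hG hp1) i)
          · intro p hp
            exact (Finset.mem_filter.1 hp).2
          · intro p hp p' hp' i hi
            exact hagree p (Finset.mem_filter.1 hp).1 p' (Finset.mem_filter.1 hp').1 i hi)
      refine h2.trans (Nat.mul_le_mul_left _ ?_)
      apply card_residue_le _ a _
      · intro x hx
        obtain ⟨p, hp, rfl⟩ := Finset.mem_image.1 hx
        have hp1 := (Finset.mem_filter.1 hp).1
        apply Finset.prod_le_pow_card
        intro i _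
        exact hY _ (Fintype.mem_piFinset.1 (hG hp1) i)
      · intro x hx y hy
        obtain ⟨p, hp, rfl⟩ := Finset.mem_image.1 hx
        obtain ⟨p', hp', rfl⟩ := Finset.mem_image.1 hy
        exact hcong p (Finset.mem_filter.1 hp).1 p' (Finset.mem_filter.1 hp').1
          (hagree p hp p' hp'))
  rwa [hTcard] at h1

/-- The collision event for the pair `(A, A')` and the tuple `p`, modulo `a`. -/
def CollEv (a : ℕ) {n : ℕ} (p : Fin n → ℕ) (A A' : Finset (Fin n)) : Prop :=
  (∀ i, Nat.Coprime (p i) a) ∧ ∏ i ∈ A, p i ≡ ∏ i ∈ A', p i [MOD a]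

open Classical in
/-- The number of colliding pairs. -/
noncomputable def coll (a : ℕ) {n : ℕ} (p : Fin n → ℕ) : ℕ :=
  ((univ : Finset (Finset (Fin n) × Finset (Fin n))).filter (fun q => CollEv a p q.1 q.2)).card

lemma collEv_symm {a n : ℕ} {p : Fin n → ℕ} {A A' : Finset (Fin n)} :
    CollEv a p A A' ↔ CollEv a p A' A :=
  ⟨fun h => ⟨h.1, h.2.symm⟩, fun h => ⟨h.1, h.2.symm⟩⟩

open Classical in
/-- The count of tuples for a pair with `F ⊆ A \ A'`. -/
lemma card_event_le {n a Y : ℕ} (U : Finset ℕ) (hprime : ∀ p ∈ U, p.Prime) (hY : ∀ p ∈ U, p ≤ Y)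
    (ha : 0 < a) (A A' F : Finset (Fin n)) (hF1 : F ⊆ A) (hF2 : Disjoint F A') :
    ((Fintype.piFinset (fun _ : Fin n => U)).filter (fun p => CollEv a p A A')).card ≤
      (F.card.factorial * (Y ^ F.card / a + 1)) * U.card ^ (n - F.card) := by
  apply card_le_of_congr U hprime hY ha F _ (Finset.filter_subset _ _)
  intro p hp p' hp' hoff
  obtain ⟨_, hev⟩ := Finset.mem_filter.1 hp
  obtain ⟨_, hev'⟩ := Finset.mem_filter.1 hp'
  have hsplit : ∀ q : Fin n → ℕ, ∏ i ∈ A, q i = (∏ i ∈ F, q i) * ∏ i ∈ A \ F, q i := by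
    intro q
    rw [mul_comm, Finset.prod_sdiff hF1]
  have hw : ∏ i ∈ A \ F, p i = ∏ i ∈ A \ F, p' i :=
    Finset.prod_congr rfl fun i hi => hoff i (Finset.mem_sdiff.1 hi).2
  have hA' : ∏ i ∈ A', p i = ∏ i ∈ A', p' i :=
    Finset.prod_congr rfl fun i hi => hoff i (Finset.disjoint_right.1 hF2 hi)
  have h1 := hev.2
  have h2 := hev'.2
  rw [hsplit] at h1 h2
  rw [← hw] at h2
  rw [← hA'] at h2
  have h3 : (∏ i ∈ F, p i) * ∏ i ∈ A \ F, p i ≡ (∏ i ∈ F, p' i) * ∏ i ∈ A \ F, p i [MOD a] :=
    h1.trans h2.symm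
  have hcop : Nat.gcd a (∏ i ∈ A \ F, p i) = 1 := by
    apply Nat.Coprime.symm
    exact Nat.Coprime.prod_left fun i _ => hev.1 i
  exact Nat.ModEq.cancel_right_of_coprime hcop h3

/-- Counting subsets of a fixed small size. -/
lemma card_small_subsets {n k : ℕ} (hn : 2 ≤ n) :
    ((univ : Finset (Finset (Fin n))).filter (fun D => D.card < k)).card ≤ n ^ k := by
  classical
  have hsub : (univ : Finset (Finset (Fin n))).filter (fun D => D.card < k) ⊆
      (range k).biUnion (fun j => Finset.powersetCard j univ) := by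
    intro D hD
    have h1 := (Finset.mem_filter.1 hD).2
    refine Finset.mem_biUnion.2 ⟨D.card, Finset.mem_range.2 h1, ?_⟩
    rw [Finset.mem_powersetCard]
    exact ⟨Finset.subset_univ _, rfl⟩
  refine (Finset.card_le_card hsub).trans (Finset.card_biUnion_le.trans ?_)
  have h2 : ∀ j ∈ range k, (Finset.powersetCard j (univ : Finset (Fin n))).card ≤ n ^ j := by
    intro j _
    rw [Finset.card_powersetCard, Finset.card_univ, Fintype.card_fin]
    exact Nat.choose_le_pow _ _
  refine (Finset.sum_le_sum h2).trans ?_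
  have h3 := Nat.geomSum_lt hn (s := range k) (n := k) (fun x hx => Finset.mem_range.1 hx)
  exact h3.le

open Classical in
/-- The number of bad pairs. -/
lemma card_bad_pairs {n f : ℕ} (hn : 2 ≤ n) :
    ((univ : Finset (Finset (Fin n) × Finset (Fin n))).filter
      (fun q => (q.1 \ q.2).card < f ∧ (q.2 \ q.1).card < f)).card ≤ 2 ^ n * n ^ (2 * f) := by
  have h := Finset.card_le_card_of_injOn
    (s := (univ : Finset (Finset (Fin n) × Finset (Fin n))).filter
      (fun q => (q.1 \ q.2).card < f ∧ (q.2 \ q.1).card < f))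
    (t := (univ : Finset (Finset (Fin n))) ×ˢ
      ((univ : Finset (Finset (Fin n))).filter (fun D => D.card < 2 * f)))
    (fun q => (q.1, symmDiff q.1 q.2))
    (by
      intro q hq
      have h1 := (Finset.mem_filter.1 hq).2
      simp only [Finset.coe_product, Set.mem_prod, Finset.mem_coe, true_and,
        Finset.coe_univ, Set.mem_univ]
      refine Finset.mem_filter.2 ⟨Finset.mem_univ _, ?_⟩
      rw [symmDiff_def]
      have h2 := Finset.card_union_le (q.1 \ q.2) (q.2 \ q.1)
      change (q.1 \ q.2 ∪ q.2 \ q.1).card < 2 * f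
      omega)
    (by
      intro q _ q' _ e
      have e' : (q.1, symmDiff q.1 q.2) = (q'.1, symmDiff q'.1 q'.2) := e
      have e1 : q.1 = q'.1 := (Prod.mk.inj e').1
      have e2 : symmDiff q.1 q.2 = symmDiff q'.1 q'.2 := (Prod.mk.inj e').2
      rw [← e1] at e2
      have e3 : q.2 = q'.2 := by
        have := congrArg (fun z => symmDiff q.1 z) e2
        simpa [symmDiff_symmDiff_cancel_left] using this
      exact Prod.ext e1 e3)
  refine h.trans ?_
  rw [Finset.card_product]
  apply Nat.mul_le_mul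
  · simp
  · exact card_small_subsets hn

/-- The first moment bound. -/
theorem first_moment (n a Y Λ f : ℕ) (U : Finset ℕ) (hprime : ∀ p ∈ U, p.Prime)
    (hY : ∀ p ∈ U, p ≤ Y) (hU : Y ≤ Λ * U.card) (ha : 0 < a) (hf : a ≤ Y ^ f) (hfn : f ≤ n)
    (hn : 2 ≤ n) (hbad : a * n ^ (2 * f) ≤ 2 ^ n) :
    a * ∑ p ∈ Fintype.piFinset (fun _ : Fin n => U), coll a p ≤
      U.card ^ n * 4 ^ n * (1 + 2 * (f.factorial * Λ ^ f)) := by
  classical
  set Ω := Fintype.piFinset (fun _ : Fin n => U) with hΩ
  set Q := (univ : Finset (Finset (Fin n) × Finset (Fin n))) with hQ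
  have hΩcard : Ω.card = U.card ^ n := by
    rw [hΩ, Fintype.card_piFinset]
    simp
  have e1 : ∑ p ∈ Ω, coll a p = ∑ q ∈ Q, (Ω.filter (fun p => CollEv a p q.1 q.2)).card := by
    simp only [coll, Finset.card_filter]
    rw [Finset.sum_comm]
  rw [e1]
  set bad := Q.filter (fun q => (q.1 \ q.2).card < f ∧ (q.2 \ q.1).card < f) with hbaddef
  -- the bound for good pairs
  set W := f.factorial * (Y ^ f / a + 1) * U.card ^ (n - f) with hW
  have hgood : ∀ q ∈ Q, q ∉ bad → (Ω.filter (fun p => CollEv a p q.1 q.2)).card ≤ W := by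
    intro q _ hq
    have hq' : f ≤ (q.1 \ q.2).card ∨ f ≤ (q.2 \ q.1).card := by
      by_contra hcon
      push Not at hcon
      exact hq (Finset.mem_filter.2 ⟨Finset.mem_univ _, hcon.1, hcon.2⟩)
    rcases hq' with h | h
    · obtain ⟨F, hF1, hF2⟩ := Finset.exists_subset_card_eq h
      have h3 := card_event_le U hprime hY ha q.1 q.2 F (hF1.trans Finset.sdiff_subset)
        (Finset.disjoint_of_subset_left hF1 Finset.sdiff_disjoint)
      rwa [hF2] at h3
    · obtain ⟨F, hF1, hF2⟩ := Finset.exists_subset_card_eq h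
      have h3 := card_event_le U hprime hY ha q.2 q.1 F (hF1.trans Finset.sdiff_subset)
        (Finset.disjoint_of_subset_left hF1 Finset.sdiff_disjoint)
      rw [hF2] at h3
      have e : Ω.filter (fun p => CollEv a p q.1 q.2) = Ω.filter (fun p => CollEv a p q.2 q.1) :=
        Finset.filter_congr fun p _ => collEv_symm
      rw [e]
      exact h3
  have hall : ∀ q ∈ Q, (Ω.filter (fun p => CollEv a p q.1 q.2)).card ≤ U.card ^ n := by
    intro q _
    rw [← hΩcard]
    exact Finset.card_filter_le _ _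
  have hsum : ∑ q ∈ Q, (Ω.filter (fun p => CollEv a p q.1 q.2)).card ≤
      bad.card * U.card ^ n + Q.card * W := by
    rw [← Finset.sum_filter_add_sum_filter_not Q
      (fun q => (q.1 \ q.2).card < f ∧ (q.2 \ q.1).card < f)]
    apply Nat.add_le_add
    · calc _ ≤ ∑ q ∈ bad, U.card ^ n := Finset.sum_le_sum fun q hq =>
            hall q (Finset.mem_filter.1 hq).1
        _ = bad.card * U.card ^ n := by simp
    · calc _ ≤ ∑ q ∈ Q.filter (fun q => ¬ ((q.1 \ q.2).card < f ∧ (q.2 \ q.1).card < f)), W :=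
            Finset.sum_le_sum fun q hq => by
              obtain ⟨h1, h2⟩ := Finset.mem_filter.1 hq
              exact hgood q h1 (fun h3 => h2 (Finset.mem_filter.1 h3).2)
        _ = (Q.filter (fun q => ¬ ((q.1 \ q.2).card < f ∧ (q.2 \ q.1).card < f))).card * W := by
            simp
        _ ≤ Q.card * W := Nat.mul_le_mul_right _ (Finset.card_filter_le _ _)
  have hQcard : Q.card = 4 ^ n := by
    rw [hQ, Finset.card_univ, Fintype.card_prod, Fintype.card_finset, Fintype.card_fin,
      ← mul_pow]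
    norm_num
  have hbadcard : bad.card ≤ 2 ^ n * n ^ (2 * f) := card_bad_pairs hn
  have hbad2 : a * bad.card ≤ 4 ^ n := by
    calc a * bad.card ≤ a * (2 ^ n * n ^ (2 * f)) := Nat.mul_le_mul_left _ hbadcard
      _ = 2 ^ n * (a * n ^ (2 * f)) := by ring
      _ ≤ 2 ^ n * 2 ^ n := Nat.mul_le_mul_left _ hbad
      _ = 4 ^ n := by rw [← mul_pow]; norm_num
  have hWbound : a * W ≤ 2 * (f.factorial * Λ ^ f) * U.card ^ n := by
    have h1 : a * (Y ^ f / a + 1) ≤ 2 * Y ^ f := by
      have h2 : a * (Y ^ f / a) ≤ Y ^ f := Nat.mul_div_le _ _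
      rw [mul_add, mul_one]
      omega
    have h3 : Y ^ f ≤ (Λ * U.card) ^ f := Nat.pow_le_pow_left hU f
    have h4 : U.card ^ f * U.card ^ (n - f) = U.card ^ n := by
      rw [← pow_add]
      congr 1
      omega
    calc a * W = f.factorial * (a * (Y ^ f / a + 1)) * U.card ^ (n - f) := by
          rw [hW]; ring
      _ ≤ f.factorial * (2 * Y ^ f) * U.card ^ (n - f) := by gcongr
      _ ≤ f.factorial * (2 * (Λ * U.card) ^ f) * U.card ^ (n - f) := by gcongr
      _ = 2 * (f.factorial * Λ ^ f) * (U.card ^ f * U.card ^ (n - f)) := by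
          rw [mul_pow]; ring
      _ = 2 * (f.factorial * Λ ^ f) * U.card ^ n := by rw [h4]
  calc a * ∑ q ∈ Q, (Ω.filter (fun p => CollEv a p q.1 q.2)).card
      ≤ a * (bad.card * U.card ^ n + Q.card * W) := Nat.mul_le_mul_left _ hsum
    _ = (a * bad.card) * U.card ^ n + Q.card * (a * W) := by ring
    _ ≤ 4 ^ n * U.card ^ n + 4 ^ n * (2 * (f.factorial * Λ ^ f) * U.card ^ n) := by
        rw [hQcard]
        gcongr
    _ = U.card ^ n * 4 ^ n * (1 + 2 * (f.factorial * Λ ^ f)) := by ring

end Vale.Agent.Lib.P012c
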