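import Mathlib
import Vale.Agent.Lib.P012c.FirstMoment

/-!
Averaging over eight independent tuples of primes.
-/

namespace Vale.Agent.Lib.P012c

open Finset

lemma single_term {s : Finset ℕ} (g : ℕ → ℝ) (hg : ∀ a, 0 ≤ g a) {a : ℕ} (ha : a ∈ s) :
    g a ≤ ∑ b ∈ s, g b :=
  Finset.single_le_sum (fun b _ => hg b) ha

/-- The existence of a good assignment of primes, from the eighth moment bounds. -/
theorem exists_assignment (n X A2 : ℕ) (U : Finset ℕ) (hUpos : 0 < U.card)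
    (hA2 : 3 ^ 8 + 1 ≤ A2)
    (hD : ∀ a ∈ Icc A2 X, (a:ℝ) ^ 7 *
      ((∑ p ∈ Fintype.piFinset (fun _ : Fin n => U), coll a p : ℕ) : ℝ) ^ 8 ≤
        3 ^ 8 * (((U.card ^ n * 4 ^ n : ℕ) : ℝ)) ^ 8) :
    ∃ P : Fin 8 → Fin n → ℕ, (∀ i, P i ∈ Fintype.piFinset (fun _ : Fin n => U)) ∧
      ∀ a ∈ Icc A2 X, a ^ 5 * ∏ i, coll a (P i) ≤ (4 ^ n) ^ 8 := by
  classical
  set Ω := Fintype.piFinset (fun _ : Fin n => U) with hΩ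
  set Ω8 := Fintype.piFinset (fun _ : Fin 8 => Ω) with hΩ8
  have hΩcard : Ω.card = U.card ^ n := by
    rw [hΩ, Fintype.card_piFinset]
    simp
  have hΩ8card : Ω8.card = (U.card ^ n) ^ 8 := by
    rw [hΩ8, Fintype.card_piFinset, hΩcard]
    simp
  have hΩ8ne : Ω8.Nonempty := by
    rw [← Finset.card_pos, hΩ8card]
    positivity
  set f : (Fin 8 → Fin n → ℕ) → ℝ := fun P =>
    ∑ a ∈ Icc A2 X, (a:ℝ) ^ 5 * ((∏ i, coll a (P i) : ℕ) : ℝ) with hf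
  set C : ℝ := ((U.card ^ n * 4 ^ n : ℕ) : ℝ) ^ 8 with hC
  have hCpos : 0 ≤ C := by positivity
  have hA2' : ((3:ℝ) ^ 8 + 1) ≤ A2 := by exact_mod_cast hA2
  have hsum1 : ∑ P ∈ Ω8, f P = ∑ a ∈ Icc A2 X, (a:ℝ) ^ 5 *
      ((∑ p ∈ Ω, coll a p : ℕ) : ℝ) ^ 8 := by
    rw [hf]
    simp only
    rw [Finset.sum_comm]
    refine Finset.sum_congr rfl fun a _ => ?_
    rw [← Finset.mul_sum]
    congr 1
    have h1 : ∏ _i : Fin 8, ((∑ p ∈ Ω, coll a p : ℕ) : ℝ) =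
        ((∑ p ∈ Ω, coll a p : ℕ) : ℝ) ^ 8 := by
      simp
    rw [← h1]
    push_cast
    rw [Finset.prod_univ_sum]
  have hsum2 : ∑ a ∈ Icc A2 X, (a:ℝ) ^ 5 * ((∑ p ∈ Ω, coll a p : ℕ) : ℝ) ^ 8 ≤ C := by
    have hterm : ∀ a ∈ Icc A2 X, (a:ℝ) ^ 5 * ((∑ p ∈ Ω, coll a p : ℕ) : ℝ) ^ 8 ≤
        3 ^ 8 * C * ((a:ℝ) ^ 2)⁻¹ := by
      intro a ha
      have ha1 := (Finset.mem_Icc.1 ha).1
      have ha0 : 0 < a := by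
        have : 3 ^ 8 + 1 ≤ a := hA2.trans ha1
        omega
      have ha' : (0:ℝ) < a := by exact_mod_cast ha0
      have h1 := hD a ha
      rw [← div_eq_mul_inv, le_div_iff₀ (by positivity)]
      calc (a:ℝ) ^ 5 * ((∑ p ∈ Ω, coll a p : ℕ) : ℝ) ^ 8 * (a:ℝ) ^ 2
          = (a:ℝ) ^ 7 * ((∑ p ∈ Ω, coll a p : ℕ) : ℝ) ^ 8 := by ring
        _ ≤ 3 ^ 8 * C := h1
    refine (Finset.sum_le_sum hterm).trans ?_
    rw [← Finset.mul_sum]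
    have hsub : Icc A2 X ⊆ Ioc (A2 - 1) (max X (A2 - 1)) := by
      intro a ha
      have h1 := Finset.mem_Icc.1 ha
      rw [Finset.mem_Ioc]
      exact ⟨by omega, le_max_of_le_left h1.2⟩
    have h2 : ∑ a ∈ Icc A2 X, ((a:ℝ) ^ 2)⁻¹ ≤ ∑ a ∈ Ioc (A2 - 1) (max X (A2 - 1)), ((a:ℝ) ^ 2)⁻¹ :=
      Finset.sum_le_sum_of_subset_of_nonneg hsub (fun _ _ _ => by positivity)
    have h3 := sum_Ioc_inv_sq_le_sub (α := ℝ) (k := A2 - 1) (n := max X (A2 - 1)) (by omega)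
      (le_max_right _ _)
    have h4 : (0:ℝ) ≤ (((max X (A2 - 1) : ℕ) : ℝ))⁻¹ := by positivity
    have h5 : (3:ℝ) ^ 8 ≤ ((A2 - 1 : ℕ) : ℝ) := by
      have : 3 ^ 8 ≤ A2 - 1 := by omega
      exact_mod_cast this
    have h6 : ((A2 - 1 : ℕ) : ℝ)⁻¹ ≤ ((3:ℝ) ^ 8)⁻¹ := by
      apply inv_anti₀ (by positivity) h5
    have h7 : ∑ a ∈ Icc A2 X, ((a:ℝ) ^ 2)⁻¹ ≤ ((3:ℝ) ^ 8)⁻¹ := by linarith
    calc 3 ^ 8 * C * ∑ a ∈ Icc A2 X, ((a:ℝ) ^ 2)⁻¹ ≤ 3 ^ 8 * C * ((3:ℝ) ^ 8)⁻¹ := by gcongr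
      _ = C := by field_simp
  have hsum3 : ∑ P ∈ Ω8, f P ≤ ∑ _P ∈ Ω8, (((4 ^ n) ^ 8 : ℕ) : ℝ) := by
    have key : ∀ W Q : ℕ, ((W * Q : ℕ) : ℝ) ^ 8 = ((W ^ 8 : ℕ) : ℝ) * ((Q ^ 8 : ℕ) : ℝ) := by
      intro W Q
      push_cast
      ring
    rw [hsum1, Finset.sum_const, hΩ8card, nsmul_eq_mul]
    refine hsum2.trans (le_of_eq ?_)
    rw [hC]
    exact key _ _
  obtain ⟨P, hP, hPle⟩ := Finset.exists_le_of_sum_le hΩ8ne hsum3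
  refine ⟨P, fun i => Fintype.mem_piFinset.1 hP i, ?_⟩
  intro a ha
  have h1 : (a:ℝ) ^ 5 * ((∏ i, coll a (P i) : ℕ) : ℝ) ≤ f P :=
    single_term (fun a : ℕ => (a:ℝ) ^ 5 * ((∏ i, coll a (P i) : ℕ) : ℝ))
      (fun b => mul_nonneg (pow_nonneg (Nat.cast_nonneg b) 5) (Nat.cast_nonneg _)) ha
  have h2 : (((a ^ 5 * ∏ i, coll a (P i) : ℕ)) : ℝ) ≤ (((4 ^ n) ^ 8 : ℕ) : ℝ) := by
    rw [Nat.cast_mul, Nat.cast_pow a 5]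
    exact h1.trans hPle
  exact Nat.cast_le.1 h2

/-- The moment inequality from the first moment bound and a bound on the factor `K`. -/
lemma moment_of_first (a D W K : ℕ) (ha : 0 < a) (hK1 : 1 ≤ K) (hK : K ^ 8 ≤ a)
    (h : a * D ≤ W * (1 + 2 * K)) :
    (a:ℝ) ^ 7 * (D:ℝ) ^ 8 ≤ 3 ^ 8 * (W:ℝ) ^ 8 := by
  have h1 : a * D ≤ W * (3 * K) := by
    refine h.trans (Nat.mul_le_mul_left _ ?_)
    omega
  have h2 : (a * D) ^ 8 ≤ (W * (3 * K)) ^ 8 := Nat.pow_le_pow_left h1 8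
  have h3 : a * (a ^ 7 * D ^ 8) ≤ a * (3 ^ 8 * W ^ 8) := by
    calc a * (a ^ 7 * D ^ 8) = (a * D) ^ 8 := by ring
      _ ≤ (W * (3 * K)) ^ 8 := h2
      _ = K ^ 8 * (3 ^ 8 * W ^ 8) := by ring
      _ ≤ a * (3 ^ 8 * W ^ 8) := Nat.mul_le_mul_right _ hK
  have h4 := Nat.le_of_mul_le_mul_left h3 ha
  exact_mod_cast h4

end Vale.Agent.Lib.P012c
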