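import Mathlib

/-!
The bilinear estimate: `|∑_{i,j} ω^(u i * v j)|^2 ≤ a E(u) E(v)` for a primitive `a`-th root of
unity `ω`, with `E` the number of pairs congruent modulo `a`.
-/

namespace Vale.Agent.Lib.P012c

open Finset

variable {ι κ : Type*}

/-- The number of pairs in `s` on which `u` is congruent modulo `a`. -/
def energy (s : Finset ι) (u : ι → ℕ) (a : ℕ) : ℕ :=
  ((s ×ˢ s).filter (fun p => u p.1 ≡ u p.2 [MOD a])).card

lemma pow_eq_iff_modEq {ω : ℂ} {a : ℕ} (ha : 0 < a) (hω : IsPrimitiveRoot ω a) (x y : ℕ) :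
    ω ^ x = ω ^ y ↔ x ≡ y [MOD a] := by
  have := (hω.isOfFinOrder ha.ne').pow_eq_pow_iff_modEq (n := x) (m := y)
  rwa [← hω.eq_orderOf] at this

lemma sum_norm_sq_D {ω : ℂ} {a : ℕ} (ha : 0 < a) (hω : IsPrimitiveRoot ω a) (t : Finset κ)
    (v : κ → ℕ) :
    ∑ w ∈ range a, ‖∑ j ∈ t, ω ^ (w * v j)‖ ^ 2 = (a:ℝ) * energy t v a := by
  have hnorm : ‖ω‖ = 1 := hω.norm'_eq_one ha.ne'
  have hconj : (starRingEnd ℂ) ω = ω⁻¹ := (Complex.inv_eq_conj hnorm).symm
  have hω0 : ω ≠ 0 := hω.ne_zero ha.ne'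
  have hωa : ω ^ a = 1 := hω.pow_eq_one
  have key : ((∑ w ∈ range a, ‖∑ j ∈ t, ω ^ (w * v j)‖ ^ 2 : ℝ) : ℂ) =
      (((a:ℝ) * energy t v a : ℝ) : ℂ) := by
    have h1 : ∀ w ∈ range a, (((‖∑ j ∈ t, ω ^ (w * v j)‖ ^ 2 : ℝ)) : ℂ) =
        ∑ p ∈ t ×ˢ t, (ω ^ (v p.1) * ω⁻¹ ^ (v p.2)) ^ w := by
      intro w _
      have h2 : (((‖∑ j ∈ t, ω ^ (w * v j)‖ ^ 2 : ℝ)) : ℂ) =
          (∑ j ∈ t, ω ^ (w * v j)) * (starRingEnd ℂ) (∑ j ∈ t, ω ^ (w * v j)) := by
        rw [Complex.mul_conj, Complex.normSq_eq_norm_sq]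
      rw [h2, map_sum, Finset.sum_mul_sum, Finset.sum_product]
      refine Finset.sum_congr rfl fun x _ => Finset.sum_congr rfl fun y _ => ?_
      rw [map_pow, hconj, mul_pow, ← pow_mul, ← pow_mul]
      congr 2 <;> ring
    push_cast
    have h3 := Finset.sum_congr rfl h1
    push_cast at h3
    rw [h3, Finset.sum_comm]
    have h4 : ∀ p ∈ t ×ˢ t, ∑ w ∈ range a, (ω ^ (v p.1) * ω⁻¹ ^ (v p.2)) ^ w =
        if v p.1 ≡ v p.2 [MOD a] then (a:ℂ) else 0 := by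
      intro p _
      set ξ := ω ^ (v p.1) * ω⁻¹ ^ (v p.2) with hξ
      have hξ1 : ξ = 1 ↔ v p.1 ≡ v p.2 [MOD a] := by
        rw [← pow_eq_iff_modEq ha hω, hξ, inv_pow]
        constructor
        · intro h
          field_simp at h
          exact h
        · intro h
          rw [h]
          field_simp
      by_cases hc : v p.1 ≡ v p.2 [MOD a]
      · rw [if_pos hc, hξ1.2 hc]
        simp
      · rw [if_neg hc]
        have hξne : ξ ≠ 1 := fun h => hc (hξ1.1 h)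
        have hξa : ξ ^ a = 1 := by
          rw [hξ, mul_pow, ← pow_mul, ← pow_mul, inv_pow, mul_comm (v p.1), mul_comm (v p.2),
            pow_mul, pow_mul, hωa]
          simp
        rw [geom_sum_eq hξne, hξa]
        simp
    rw [Finset.sum_congr rfl h4, ← Finset.sum_filter, Finset.sum_const, energy]
    simp [mul_comm]
  exact_mod_cast key

lemma sum_sq_fiber {a : ℕ} (ha : 0 < a) (s : Finset ι) (u : ι → ℕ) :
    ∑ w ∈ range a, (((s.filter (fun i => u i % a = w)).card : ℕ) : ℝ) ^ 2 = energy s u a := by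
  classical
  have h1 : energy s u a =
      ∑ w ∈ range a, (((s ×ˢ s).filter (fun p => u p.1 ≡ u p.2 [MOD a])).filter
        (fun p => u p.1 % a = w)).card := by
    rw [energy]
    apply Finset.card_eq_sum_card_fiberwise
    intro p _
    exact Finset.mem_coe.2 (Finset.mem_range.2 (Nat.mod_lt _ ha))
  rw [h1]
  push_cast
  refine Finset.sum_congr rfl fun w _ => ?_
  have h2 : ((s ×ˢ s).filter (fun p => u p.1 ≡ u p.2 [MOD a])).filter
      (fun p => u p.1 % a = w) =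
      (s.filter (fun i => u i % a = w)) ×ˢ (s.filter (fun i => u i % a = w)) := by
    ext p
    simp only [Finset.mem_filter, Finset.mem_product]
    constructor
    · rintro ⟨⟨⟨h1, h2⟩, h3⟩, h4⟩
      have h3' : u p.1 % a = u p.2 % a := h3
      exact ⟨⟨h1, h4⟩, ⟨h2, by omega⟩⟩
    · rintro ⟨⟨h1, h2⟩, ⟨h3, h4⟩⟩
      refine ⟨⟨⟨h1, h3⟩, ?_⟩, h2⟩
      show u p.1 % a = u p.2 % a
      omega
  rw [h2, Finset.card_product]
  push_cast
  ring

/-- The bilinear estimate. -/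
theorem bilinear {ω : ℂ} {a : ℕ} (ha : 0 < a) (hω : IsPrimitiveRoot ω a) (s : Finset ι)
    (t : Finset κ) (u : ι → ℕ) (v : κ → ℕ) :
    ‖∑ i ∈ s, ∑ j ∈ t, ω ^ (u i * v j)‖ ^ 2 ≤ (a:ℝ) * energy s u a * energy t v a := by
  classical
  set D : ℕ → ℂ := fun w => ∑ j ∈ t, ω ^ (w * v j) with hD
  have hmod : ∀ x : ℕ, ∑ j ∈ t, ω ^ (x * v j) = D (x % a) := by
    intro x
    rw [hD]
    refine Finset.sum_congr rfl fun j _ => ?_
    rw [pow_eq_iff_modEq ha hω]
    exact ((Nat.mod_modEq x a).symm).mul_right _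
  have hsum : ∑ i ∈ s, ∑ j ∈ t, ω ^ (u i * v j) =
      ∑ w ∈ range a, ((s.filter (fun i => u i % a = w)).card : ℂ) * D w := by
    have h1 : ∑ i ∈ s, ∑ j ∈ t, ω ^ (u i * v j) = ∑ i ∈ s, D (u i % a) :=
      Finset.sum_congr rfl fun i _ => hmod (u i)
    rw [h1, ← Finset.sum_fiberwise_of_maps_to (s := s) (t := range a) (g := fun i => u i % a)
      (fun i _ => Finset.mem_range.2 (Nat.mod_lt _ ha))]
    refine Finset.sum_congr rfl fun w _ => ?_
    have h2 : ∀ i ∈ s.filter (fun i => u i % a = w), D (u i % a) = D w := by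
      intro i hi
      rw [(Finset.mem_filter.1 hi).2]
    rw [Finset.sum_congr rfl h2, Finset.sum_const, nsmul_eq_mul]
  have hnorm : ‖∑ i ∈ s, ∑ j ∈ t, ω ^ (u i * v j)‖ ≤
      ∑ w ∈ range a, ((s.filter (fun i => u i % a = w)).card : ℝ) * ‖D w‖ := by
    rw [hsum]
    refine (norm_sum_le _ _).trans (le_of_eq ?_)
    refine Finset.sum_congr rfl fun w _ => ?_
    simp
  have hCS := Finset.sum_mul_sq_le_sq_mul_sq (range a)
    (fun w => ((s.filter (fun i => u i % a = w)).card : ℝ)) (fun w => ‖D w‖)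
  rw [sum_sq_fiber ha s u, sum_norm_sq_D ha hω t v] at hCS
  calc ‖∑ i ∈ s, ∑ j ∈ t, ω ^ (u i * v j)‖ ^ 2
      ≤ (∑ w ∈ range a, ((s.filter (fun i => u i % a = w)).card : ℝ) * ‖D w‖) ^ 2 :=
        pow_le_pow_left₀ (norm_nonneg _) hnorm 2
    _ ≤ _ := hCS
    _ = (a:ℝ) * energy s u a * energy t v a := by ring

end Vale.Agent.Lib.P012c
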