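import Mathlib

/-!
Digit expansions: once every small integer coprime to a fixed list of primes has a
short expansion over `2^E * N0`, so does every rational `z / (2^E * N0)` where `z` is
small and has denominator dividing a product of bounded integers.
-/

namespace Vale.Agent.Lib.P012c

/-- `q` is a sum of at most `K` unit fractions whose denominators are multiples of `2^E`. -/
def DigitRep (E K : ℕ) (q : ℚ) : Prop :=
  ∃ L : List ℕ, L.length ≤ K ∧ (∀ n ∈ L, 0 < n ∧ 2^E ∣ n) ∧
    q = (L.map (fun n : ℕ => (1:ℚ)/n)).sum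

lemma DigitRep.zero (E : ℕ) : DigitRep E 0 0 := ⟨[], by simp, by simp, by simp⟩

lemma DigitRep.mono {E K K' : ℕ} {q : ℚ} (h : DigitRep E K q) (hK : K ≤ K') :
    DigitRep E K' q := by
  obtain ⟨L, h1, h2, h3⟩ := h
  exact ⟨L, h1.trans hK, h2, h3⟩

lemma DigitRep.add {E K1 K2 : ℕ} {q1 q2 : ℚ} (h1 : DigitRep E K1 q1) (h2 : DigitRep E K2 q2) :
    DigitRep E (K1 + K2) (q1 + q2) := by
  obtain ⟨L1, a1, b1, c1⟩ := h1
  obtain ⟨L2, a2, b2, c2⟩ := h2
  refine ⟨L1 ++ L2, by simp; omega, ?_, ?_⟩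
  · intro n hn
    rcases List.mem_append.1 hn with hn | hn
    · exact b1 n hn
    · exact b2 n hn
  · simp [c1, c2]

lemma DigitRep.div_nat {E K : ℕ} {q : ℚ} (h : DigitRep E K q) (Q : ℕ) (hQ : 0 < Q) :
    DigitRep E K (q / Q) := by
  obtain ⟨L, a, b, c⟩ := h
  refine ⟨L.map (fun n => n * Q), by simpa using a, ?_, ?_⟩
  · intro n hn
    obtain ⟨m, hm, rfl⟩ := List.mem_map.1 hn
    exact ⟨Nat.mul_pos (b m hm).1 hQ, Dvd.dvd.mul_right (b m hm).2 Q⟩
  · rw [c]
    clear a b c
    induction L with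
    | nil => simp
    | cons x xs ih =>
      simp only [List.map_cons, List.sum_cons, add_div, ih]
      congr 1
      push_cast
      rw [div_div]

/-- The W-trick: `R ∣ ∑ d` with `d ∣ N0` gives an expansion of `R / (2^E * N0)`. -/
theorem digitRep_of_dvd_sum (E K N0 R : ℕ) (hN0 : 0 < N0) (hR : 0 < R) (xs : List ℕ)
    (hne : xs ≠ []) (hlen : xs.length ≤ K) (hxs : ∀ d ∈ xs, 0 < d ∧ d ∣ N0) (hdvd : R ∣ xs.sum) :
    DigitRep E K ((R:ℚ) / (2^E * N0)) := by
  obtain ⟨c, hc⟩ := hdvd
  have hsumpos : 0 < xs.sum := by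
    cases xs with
    | nil => exact absurd rfl hne
    | cons x xs' =>
      have h1 := (hxs x (by simp)).1
      simp only [List.sum_cons]
      omega
  have hc0 : 0 < c := by
    rcases Nat.eq_zero_or_pos c with rfl | h
    · simp at hc; omega
    · exact h
  refine ⟨xs.map (fun d => 2^E * c * (N0 / d)), by simpa using hlen, ?_, ?_⟩
  · intro n hn
    obtain ⟨d, hd, rfl⟩ := List.mem_map.1 hn
    have hd' := hxs d hd
    refine ⟨Nat.mul_pos (Nat.mul_pos (by positivity) hc0) (Nat.div_pos (Nat.le_of_dvd hN0 hd'.2) hd'.1), ?_⟩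
    exact Dvd.dvd.mul_right (Dvd.intro _ rfl) _
  · have h2 : ∀ l : List ℕ, (∀ d ∈ l, 0 < d ∧ d ∣ N0) →
        ((l.map (fun d => 2^E * c * (N0 / d))).map (fun n : ℕ => (1:ℚ)/n)).sum =
          (l.sum : ℚ) / (2^E * c * N0) := by
      intro l hl
      induction l with
      | nil => simp
      | cons d ds ih =>
        have hd := hl d (by simp)
        have ih' := ih (fun x hx => hl x (by simp [hx]))
        simp only [List.map_cons, List.sum_cons]
        rw [ih']
        push_cast
        rw [add_div]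
        congr 1
        obtain ⟨q, hq⟩ := hd.2
        have hd0 : (d:ℚ) ≠ 0 := by exact_mod_cast hd.1.ne'
        have hq0 : 0 < q := by
          rcases Nat.eq_zero_or_pos q with rfl | h
          · simp at hq; omega
          · exact h
        have hq0' : (q:ℚ) ≠ 0 := by exact_mod_cast hq0.ne'
        have hc0' : (c:ℚ) ≠ 0 := by exact_mod_cast hc0.ne'
        have hdiv : N0 / d = q := by
          rw [hq]; exact Nat.mul_div_cancel_left _ hd.1
        rw [hdiv, hq]
        push_cast
        field_simp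
    rw [h2 xs hxs, hc]
    have hc0' : (c:ℚ) ≠ 0 := by exact_mod_cast hc0.ne'
    have hN0' : (N0:ℚ) ≠ 0 := by exact_mod_cast hN0.ne'
    push_cast
    field_simp

/-- The digit expansion. -/
theorem digits (E κ N0 X B G : ℕ) (Good : ℕ → Prop) (hBX : B ≤ X)
    (hU : ∀ R : ℕ, 1 ≤ R → R ≤ X → Good R → DigitRep E κ ((R:ℚ) / (2^E * N0)))
    (hB1 : ∀ t : ℕ, 1 ≤ t → t ≤ B → Good t) (hB2 : ∀ w : ℕ, B < w → ∃ j ≤ B, Good (w - j))
    (hBG : (B + 1) * G ≤ X) :
    ∀ gs : List ℕ, (∀ g ∈ gs, 1 ≤ g ∧ g ≤ G) → ∀ z : ℚ, 0 ≤ z → z ≤ X →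
      (∃ k : ℤ, z * (gs.prod : ℚ) = k) → DigitRep E (κ * (gs.length + 2)) (z / (2^E * N0)) := by
  have hsmall : ∀ t : ℕ, t ≤ B → DigitRep E κ ((t:ℚ) / (2^E * N0)) := by
    intro t ht
    rcases Nat.eq_zero_or_pos t with rfl | h
    · simpa using (DigitRep.zero E).mono (Nat.zero_le κ)
    · exact hU t h (ht.trans hBX) (hB1 t h ht)
  have hpeel : ∀ z : ℚ, 0 ≤ z → z ≤ X → ∃ R : ℕ, DigitRep E κ ((R:ℚ) / (2^E * N0)) ∧
      (R:ℚ) ≤ z ∧ z - R < B + 1 := by
    intro z hz0 hzX
    set w := ⌊z⌋₊ with hw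
    have hw1 : (w:ℚ) ≤ z := Nat.floor_le hz0
    have hw2 : z < w + 1 := Nat.lt_floor_add_one z
    by_cases hwB : w ≤ B
    · refine ⟨0, by simpa using (DigitRep.zero E).mono (Nat.zero_le κ), by simpa using hz0, ?_⟩
      have : (w:ℚ) ≤ B := by exact_mod_cast hwB
      simp only [Nat.cast_zero, sub_zero]
      linarith
    · push Not at hwB
      obtain ⟨j, hjB, hj⟩ := hB2 w hwB
      have hjw : j < w := by omega
      have hwX : w ≤ X := by
        have : (w:ℚ) ≤ X := hw1.trans hzX
        exact_mod_cast this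
      have hcast : ((w - j : ℕ) : ℚ) = w - j := by
        rw [Nat.cast_sub hjw.le]
      refine ⟨w - j, hU _ (by omega) (by omega) hj, ?_, ?_⟩
      · rw [hcast]
        have : (0:ℚ) ≤ j := by positivity
        linarith
      · rw [hcast]
        have : (j:ℚ) ≤ B := by exact_mod_cast hjB
        linarith
  intro gs
  induction gs with
  | nil =>
    intro _ z hz0 hzX hk
    obtain ⟨k, hk⟩ := hk
    obtain ⟨R, hR1, hR2, hR3⟩ := hpeel z hz0 hzX
    simp only [List.prod_nil, Nat.cast_one, mul_one] at hk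
    have hkR : 0 ≤ k - R := by
      have : ((R:ℤ):ℚ) ≤ (k:ℚ) := by
        rw [← hk]; simpa using hR2
      have h2 : (R:ℤ) ≤ k := by exact_mod_cast this
      omega
    obtain ⟨j, hj⟩ := Int.eq_ofNat_of_zero_le hkR
    have hzj : z = R + j := by
      have : ((k - R : ℤ) : ℚ) = (j : ℤ) := by rw [hj]
      push_cast at this
      rw [hk]
      linarith
    have hjB : j ≤ B := by
      have : (j:ℚ) < B + 1 := by
        rw [hzj] at hR3
        simpa using hR3
      have h2 : j < B + 1 := by exact_mod_cast this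
      omega
    have := hR1.add (hsmall j hjB)
    have e : κ * (([] : List ℕ).length + 2) = κ + κ := by simp; ring
    rw [e]
    convert this using 1
    rw [hzj, add_div]
  | cons g gs ih =>
    intro hgs z hz0 hzX hk
    obtain ⟨R, hR1, hR2, hR3⟩ := hpeel z hz0 hzX
    have hg := hgs g (by simp)
    have hg0 : (0:ℚ) < g := by exact_mod_cast hg.1
    have hgG : (g:ℚ) ≤ G := by exact_mod_cast hg.2
    have hz1 : 0 ≤ (z - R) * g := mul_nonneg (by linarith) hg0.le
    have hz2 : (z - R) * g ≤ X := by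
      have h1 : ((z - R) * g : ℚ) ≤ (B + 1) * G := by
        apply mul_le_mul hR3.le hgG hg0.le (by positivity)
      have h2 : (((B + 1) * G : ℕ) : ℚ) ≤ X := by exact_mod_cast hBG
      push_cast at h2
      linarith
    have hint : ∃ k : ℤ, (z - R) * g * (gs.prod : ℚ) = k := by
      obtain ⟨k, hk⟩ := hk
      simp only [List.prod_cons, Nat.cast_mul] at hk
      generalize gs.prod = P at hk
      refine ⟨k - R * P * g, ?_⟩
      push_cast
      rw [← hk]
      ring
    have h3 := ih (fun x hx => hgs x (by simp [hx])) _ hz1 hz2 hint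
    have h4 := h3.div_nat g hg.1
    have h5 := hR1.add h4
    have e : κ * ((g :: gs).length + 2) = κ + κ * (gs.length + 2) := by
      simp only [List.length_cons]; ring
    rw [e]
    convert h5 using 1
    have hg' : (g:ℚ) ≠ 0 := hg0.ne'
    rw [div_right_comm, mul_div_cancel_right₀ _ hg', ← add_div]
    congr 1
    ring

end Vale.Agent.Lib.P012c
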