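import Mathlib

/-!
Merging repeated denominators: a multiset of positive integers of small Kraft weight has the
same sum of reciprocals as a finite set of no larger size.
-/

namespace Vale.Agent.Lib.P012c

open Finset

lemma merge_aux (E : ℕ) : ∀ (k : ℕ) (M : Multiset ℕ), Multiset.card M = k → (∀ n ∈ M, 0 < n) →
    (M.map (fun n : ℕ => (1:ℚ) / (Nat.gcd n (2^E) : ℕ))).sum ≤ 1 →
    ∃ T : Finset ℕ, T.card ≤ Multiset.card M ∧ (∀ n ∈ T, 0 < n) ∧
      ∑ n ∈ T, (1:ℚ)/n = (M.map (fun n : ℕ => (1:ℚ)/n)).sum := by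
  intro k
  induction k using Nat.strong_induction_on with
  | _ k ih =>
    intro M hk hpos hw
    by_cases hnd : M.Nodup
    · exact ⟨⟨M, hnd⟩, le_rfl, fun n hn => hpos n hn, rfl⟩
    · rw [Multiset.nodup_iff_count_le_one] at hnd
      push Not at hnd
      obtain ⟨n, hn⟩ := hnd
      have hmem : n ∈ M := Multiset.count_pos.1 (by omega)
      obtain ⟨M1, rfl⟩ := Multiset.exists_cons_of_mem hmem
      have hmem1 : n ∈ M1 := by
        rw [Multiset.count_cons_self] at hn
        exact Multiset.count_pos.1 (by omega)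
      obtain ⟨M2, rfl⟩ := Multiset.exists_cons_of_mem hmem1
      have hnpos : 0 < n := hpos n (Multiset.mem_cons_self _ _)
      have hw2 : (0:ℚ) ≤ (M2.map (fun n : ℕ => (1:ℚ) / (Nat.gcd n (2^E) : ℕ))).sum := by
        apply Multiset.sum_nonneg
        intro x hx
        obtain ⟨y, _, rfl⟩ := Multiset.mem_map.1 hx
        positivity
      simp only [Multiset.map_cons, Multiset.sum_cons] at hw
      have heven : 2 ∣ n := by
        by_contra hodd
        have hc : Nat.gcd n (2^E) = 1 := by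
          apply Nat.Coprime.pow_right
          exact ((Nat.Prime.coprime_iff_not_dvd Nat.prime_two).2 hodd).symm
        rw [hc] at hw
        norm_num at hw hw2
        linarith
      obtain ⟨c, rfl⟩ := heven
      have hc0 : 0 < c := by omega
      have hg : Nat.gcd (2 * c) (2^E) ≤ 2 * Nat.gcd c (2^E) := by
        have h1 : Nat.gcd (2 * c) (2^E) ∣ Nat.gcd 2 (2^E) * Nat.gcd c (2^E) := by
          have h0 := gcd_mul_dvd_mul_gcd (2^E) 2 c
          simp only [gcd_eq_nat_gcd] at h0
          rwa [Nat.gcd_comm, Nat.gcd_comm 2, Nat.gcd_comm c]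
        have h2 : Nat.gcd 2 (2^E) ≤ 2 := Nat.gcd_le_left _ (by norm_num)
        have h3 : 0 < Nat.gcd c (2^E) := Nat.gcd_pos_of_pos_left _ hc0
        calc Nat.gcd (2 * c) (2^E) ≤ Nat.gcd 2 (2^E) * Nat.gcd c (2^E) :=
              Nat.le_of_dvd (Nat.mul_pos (Nat.gcd_pos_of_pos_left _ (by norm_num)) h3) h1
          _ ≤ 2 * Nat.gcd c (2^E) := Nat.mul_le_mul_right _ h2
      have hw3 : (1:ℚ) / (Nat.gcd c (2^E) : ℕ) ≤
          (1:ℚ) / (Nat.gcd (2 * c) (2^E) : ℕ) + (1:ℚ) / (Nat.gcd (2 * c) (2^E) : ℕ) := by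
        have h3 : 0 < Nat.gcd c (2^E) := Nat.gcd_pos_of_pos_left _ hc0
        have h4 : 0 < Nat.gcd (2 * c) (2^E) := Nat.gcd_pos_of_pos_left _ (by omega)
        have h3' : (0:ℚ) < (Nat.gcd c (2^E) : ℕ) := by exact_mod_cast h3
        have h4' : (0:ℚ) < (Nat.gcd (2 * c) (2^E) : ℕ) := by exact_mod_cast h4
        have hg' : ((Nat.gcd (2 * c) (2^E) : ℕ) : ℚ) ≤ 2 * (Nat.gcd c (2^E) : ℕ) := by
          exact_mod_cast hg
        rw [← add_div, div_le_div_iff₀ h3' h4']
        linarith
      have hcard : Multiset.card (c ::ₘ M2) < k := by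
        rw [← hk]
        simp
      obtain ⟨T, hT1, hT2, hT3⟩ := ih _ hcard (c ::ₘ M2) rfl (by
        intro x hx
        rcases Multiset.mem_cons.1 hx with rfl | hx
        · exact hc0
        · exact hpos x (Multiset.mem_cons_of_mem (Multiset.mem_cons_of_mem hx))) (by
        simp only [Multiset.map_cons, Multiset.sum_cons]
        linarith)
      refine ⟨T, ?_, hT2, ?_⟩
      · refine hT1.trans ?_
        simp
      · rw [hT3]
        simp only [Multiset.map_cons, Multiset.sum_cons]
        have hc' : (c:ℚ) ≠ 0 := by positivity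
        have : (1:ℚ) / c = (1:ℚ) / ((2 * c : ℕ) : ℚ) + ((1:ℚ) / ((2 * c : ℕ) : ℚ)) := by
          push_cast
          field_simp
          norm_num
        rw [this]
        ring

/-- Kraft merging for a list of multiples of `2^E` of length at most `2^E`. -/
theorem merge_list (E : ℕ) (L : List ℕ) (hlen : L.length ≤ 2^E)
    (hL : ∀ n ∈ L, 0 < n ∧ 2^E ∣ n) :
    ∃ T : Finset ℕ, T.card ≤ L.length ∧ (∀ n ∈ T, 0 < n) ∧
      ∑ n ∈ T, (1:ℚ)/n = (L.map (fun n : ℕ => (1:ℚ)/n)).sum := by
  obtain ⟨T, h1, h2, h3⟩ := merge_aux E _ (L : Multiset ℕ) rfl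
    (fun n hn => (hL n (by simpa using hn)).1) (by
      have hsum : ∀ L' : List ℕ, (∀ n ∈ L', 0 < n ∧ 2^E ∣ n) →
          (((L' : Multiset ℕ).map (fun n : ℕ => (1:ℚ) / (Nat.gcd n (2^E) : ℕ))).sum)
            = L'.length * ((1:ℚ) / (2^E : ℕ)) := by
        intro L' hL'
        induction L' with
        | nil => simp
        | cons x xs ih =>
          have hx := hL' x (by simp)
          have hxs := ih (fun n hn => hL' n (by simp [hn]))
          have hgcd : Nat.gcd x (2^E) = 2^E := Nat.gcd_eq_right hx.2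
          rw [← Multiset.cons_coe, Multiset.map_cons, Multiset.sum_cons, hxs, hgcd, List.length_cons]
          push_cast
          ring
      rw [hsum L hL]
      have h2E : (0:ℚ) < ((2^E : ℕ) : ℚ) := by positivity
      have hle : ((L.length : ℕ) : ℚ) ≤ ((2^E : ℕ) : ℚ) := by exact_mod_cast hlen
      rw [mul_one_div, div_le_one h2E]
      exact hle)
  refine ⟨T, by simpa using h1, h2, ?_⟩
  rw [h3]
  simp

end Vale.Agent.Lib.P012c
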