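import Mathlib

/-!
The greedy part: subtract unit fractions `1 / (e * g)` where `e` is a divisor of `N`,
so that the remainder `r` stays a rational with `r * N * ∏ g` an integer and decreases fast.
-/

namespace Vale.Agent.Lib.P012c

open Finset

/-- The invariant of the greedy process. -/
def St (a b N G : ℕ) (S : Finset ℕ) (r : ℚ) (gs : List ℕ) : Prop :=
  ∑ n ∈ S, (1:ℚ)/n + r = (a:ℚ)/b ∧ 0 ≤ r ∧ r < 1 ∧ (∃ k : ℤ, r * N * (gs.prod : ℚ) = k) ∧
    (∀ g ∈ gs, 1 ≤ g ∧ g ≤ G) ∧ (∀ n ∈ S, 2 ≤ n ∧ (n:ℚ) * r < 1)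

lemma St.step {a b N G : ℕ} {S : Finset ℕ} {r : ℚ} {gs : List ℕ} (h : St a b N G S r gs)
    (hr : 0 < r) (e g : ℕ) (he : 0 < e) (heN : e ∣ N) (hex : (e:ℚ) * r ≤ 1)
    (hg1 : 1 ≤ (e:ℚ) * r * g) (hg2 : (e:ℚ) * r * (g - 1) < 1) (hgG : g ≤ G) :
    St a b N G (insert (e * g) S) (r - 1 / ((e * g : ℕ) : ℚ)) (g :: gs) ∧
      (r - 1 / ((e * g : ℕ) : ℚ)) * g < r := by
  obtain ⟨h1, h2, h3, ⟨k, hk⟩, h5, h6⟩ := h
  have hg0 : 0 < g := by
    rcases Nat.eq_zero_or_pos g with rfl | hg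
    · simp at hg1
      linarith
    · exact hg
  have hn0 : 0 < e * g := Nat.mul_pos he hg0
  have he' : (0:ℚ) < e := by exact_mod_cast he
  have hg' : (0:ℚ) < g := by exact_mod_cast hg0
  have hn' : (0:ℚ) < ((e * g : ℕ) : ℚ) := by exact_mod_cast hn0
  have hcast : ((e * g : ℕ) : ℚ) = (e:ℚ) * g := by push_cast; ring
  have hnr : 1 ≤ ((e * g : ℕ) : ℚ) * r := by
    rw [hcast]
    calc (1:ℚ) ≤ (e:ℚ) * r * g := hg1
      _ = (e:ℚ) * g * r := by ring
  have hnot : e * g ∉ S := by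
    intro hmem
    have := (h6 _ hmem).2
    linarith
  have hdiv : 1 / ((e * g : ℕ) : ℚ) ≤ r := by
    rw [div_le_iff₀ hn']
    linarith
  have hdivpos : 0 < 1 / ((e * g : ℕ) : ℚ) := by positivity
  set r' := r - 1 / ((e * g : ℕ) : ℚ) with hr'
  have hr'0 : 0 ≤ r' := by rw [hr']; linarith
  have hr'1 : r' < r := by rw [hr']; linarith
  have hmulr : r' * g < r := by
    have e1 : r' * g = r * g - 1 / e := by
      rw [hr', hcast]
      field_simp
    rw [e1, sub_lt_iff_lt_add]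
    have e2 : r * g = r * (g - 1) + r := by ring
    have e3 : r * (g - 1) < 1 / e := by
      rw [lt_div_iff₀ he']
      calc r * (g - 1) * e = (e:ℚ) * r * (g - 1) := by ring
        _ < 1 := hg2
    linarith
  refine ⟨⟨?_, hr'0, by linarith, ?_, ?_, ?_⟩, hmulr⟩
  · rw [Finset.sum_insert hnot, ← h1, hr']
    ring
  · obtain ⟨c, hc⟩ := heN
    refine ⟨g * k - c * gs.prod, ?_⟩
    have hprod : (((g :: gs).prod : ℕ) : ℚ) = (g:ℚ) * (gs.prod : ℕ) := by
      simp only [List.prod_cons]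
      push_cast
      ring_nf
    rw [hprod]
    generalize gs.prod = P at hk
    have e1 : r' * N * ((g:ℚ) * P) = g * (r * N * P) - (N / e) * P := by
      rw [hr', hcast]
      field_simp
    rw [e1, hk]
    rw [hc]
    push_cast
    field_simp
  · intro x hx
    rcases List.mem_cons.1 hx with rfl | hx
    · exact ⟨hg0, hgG⟩
    · exact h5 x hx
  · intro n hn
    rcases Finset.mem_insert.1 hn with rfl | hn
    · constructor
      · by_contra hlt
        push Not at hlt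
        have hn1 : e * g ≤ 1 := by omega
        have : ((e * g : ℕ) : ℚ) ≤ 1 := by exact_mod_cast hn1
        nlinarith
      · have e1 : ((e * g : ℕ) : ℚ) * r' = (e:ℚ) * g * r - 1 := by
          rw [hr', hcast]
          field_simp
        rw [e1]
        have e2 : (e:ℚ) * g * r = (e:ℚ) * r * (g - 1) + (e:ℚ) * r := by ring
        linarith
    · refine ⟨(h6 n hn).1, ?_⟩
      have h7 := (h6 n hn).2
      have h8 : (0:ℚ) ≤ n := by positivity
      nlinarith

/-- One step of the first phase: the Sylvester step with `e = 1`. -/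
lemma St.step1 {a b N G G0 : ℕ} {S : Finset ℕ} {r : ℚ} {gs : List ℕ} (h : St a b N G S r gs)
    (hG0 : G0 ≤ G) (hr : 1 ≤ r * G0) : ∃ (g : ℕ) (S' : Finset ℕ) (r' : ℚ) (gs' : List ℕ),
      St a b N G S' r' gs' ∧ S'.card ≤ S.card + 1 ∧ gs'.length ≤ gs.length + 1 ∧ 2 ≤ g ∧
        r' * g < r ∧ 1 ≤ r * g := by
  have hr0 : 0 < r := by
    have h1 := h.2.1
    rcases h1.eq_or_lt with h2 | h2
    · rw [← h2] at hr
      simp at hr
      linarith
    · exact h2
  have hr1 : r < 1 := h.2.2.1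
  set x : ℚ := 1 / r with hx
  have hxr : x * r = 1 := by rw [hx]; field_simp
  have hx1 : 1 < x := by
    rw [hx, lt_div_iff₀ hr0]
    linarith
  set g := ⌈x⌉₊ with hg
  have hg1 : x ≤ g := Nat.le_ceil x
  have hg2 : (g:ℚ) < x + 1 := Nat.ceil_lt_add_one (by linarith)
  have hg3 : g ≤ G0 := by
    rw [hg, Nat.ceil_le]
    rw [hx, div_le_iff₀ hr0]
    linarith
  have hg4 : 2 ≤ g := by
    have : (1:ℚ) < g := by linarith
    have h2 : 1 < g := by exact_mod_cast this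
    omega
  have hgr : 1 ≤ r * g := by
    calc (1:ℚ) = r * x := by linarith
      _ ≤ r * g := by gcongr
  obtain ⟨hs, hl⟩ := h.step hr0 1 g (by norm_num) (one_dvd _) (by simp; linarith)
    (by simpa using hgr) (by
      simp only [Nat.cast_one, one_mul]
      nlinarith) (hg3.trans hG0)
  refine ⟨g, _, _, _, hs, ?_, by simp, hg4, hl, hgr⟩
  exact Finset.card_insert_le _ _

/-- The first phase. -/
lemma phase1 {a b N G G0 : ℕ} (hG0 : G0 ≤ G) {S0 : Finset ℕ} {r0 : ℚ} {gs0 : List ℕ}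
    (h0 : St a b N G S0 r0 gs0) (k : ℕ) : ∃ (S : Finset ℕ) (r : ℚ) (gs : List ℕ),
      St a b N G S r gs ∧ S.card ≤ S0.card + k + 1 ∧ gs.length ≤ gs0.length + k + 1 ∧
        (r * G0 < 1 ∨ r < (1/2)^(2^k)) := by
  induction k with
  | zero =>
    by_cases hr : r0 * G0 < 1
    · exact ⟨S0, r0, gs0, h0, by omega, by omega, Or.inl hr⟩
    · push Not at hr
      obtain ⟨g, S', r', gs', h1, h2, h3, h4, h5, h6⟩ := h0.step1 hG0 hr
      refine ⟨S', r', gs', h1, by omega, by omega, Or.inr ?_⟩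
      have hr1 : r0 < 1 := h0.2.2.1
      have hr'0 : 0 ≤ r' := h1.2.1
      have hg : (2:ℚ) ≤ g := by exact_mod_cast h4
      norm_num
      nlinarith
  | succ k ih =>
    obtain ⟨S, r, gs, h1, h2, h3, h4⟩ := ih
    by_cases hr : r * G0 < 1
    · exact ⟨S, r, gs, h1, by omega, by omega, Or.inl hr⟩
    · have h5 : r < (1/2)^(2^k) := by
        rcases h4 with h4 | h4
        · exact absurd h4 hr
        · exact h4
      push Not at hr
      obtain ⟨g, S', r', gs', h6, h7, h8, h9, h10, h11⟩ := h1.step1 hG0 hr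
      refine ⟨S', r', gs', h6, by omega, by omega, Or.inr ?_⟩
      have hr'0 : 0 ≤ r' := h6.2.1
      have hr0 : 0 ≤ r := h1.2.1
      have h12 : r' < r * r := by
        have hr0' : 0 < r := by
          rcases hr0.eq_or_lt with h | h
          · rw [← h] at h11
            simp at h11
            linarith
          · exact h
        calc r' = r' * 1 := by ring
          _ ≤ r' * (r * g) := by gcongr
          _ = r * (r' * g) := by ring
          _ < r * r := by gcongr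
      have h13 : ((1:ℚ)/2)^(2^(k+1)) = (1/2)^(2^k) * (1/2)^(2^k) := by
        rw [← pow_add]
        congr 1
        rw [pow_succ]
        ring
      rw [h13]
      have h14 : 0 ≤ ((1:ℚ)/2)^(2^k) := by positivity
      nlinarith

/-- One step of the second phase. -/
lemma St.step2 {a b N M X Y G0 : ℕ} {S : Finset ℕ} {r : ℚ} {gs : List ℕ}
    (h : St a b N (G0 * Y) S r gs) (hG0 : 1 ≤ G0) (hX : 0 < X)
    (hchain : ∀ v : ℕ, 1 ≤ v → v < M → ∃ e : ℕ, e ∣ N ∧ 1 ≤ e ∧ e ≤ v ∧ v < e * Y)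
    (hN : N ≤ M * X * G0) (hr1 : r * G0 < 1) (hr2 : (X:ℚ) < r * N) :
    ∃ (S' : Finset ℕ) (r' : ℚ) (gs' : List ℕ), St a b N (G0 * Y) S' r' gs' ∧
      S'.card ≤ S.card + 1 ∧ gs'.length ≤ gs.length + 1 ∧ r' * G0 < r := by
  have hX' : (0:ℚ) < X := by exact_mod_cast hX
  have hG0' : (1:ℚ) ≤ G0 := by exact_mod_cast hG0
  have hG0'' : (0:ℚ) < G0 := by linarith
  have hr0 : 0 < r := by
    have h1 := h.2.1
    rcases h1.eq_or_lt with h2 | h2
    · rw [← h2] at hr2
      simp at hr2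
      linarith
    · exact h2
  set x : ℚ := 1 / r with hx
  have hxr : x * r = 1 := by rw [hx]; field_simp
  have hxpos : 0 < x := by rw [hx]; positivity
  have hxG : (G0:ℚ) < x := by
    rw [hx, lt_div_iff₀ hr0]
    linarith
  set v := ⌊x / G0⌋₊ with hv
  have hv1 : (v:ℚ) ≤ x / G0 := Nat.floor_le (by positivity)
  have hv2 : x / G0 < v + 1 := Nat.lt_floor_add_one _
  have hv3 : 1 ≤ v := by
    rw [hv, Nat.one_le_floor_iff]
    rw [le_div_iff₀ hG0'']
    linarith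
  have hNq : (N:ℚ) ≤ M * X * G0 := by exact_mod_cast hN
  have hxM : x < M * G0 := by
    have h1 : (X:ℚ) * x < N := by
      have : (X:ℚ) * x * r < N * r * (x * r) := by
        rw [hxr]
        nlinarith
      have h3 : (X:ℚ) * x * r = X := by
        rw [mul_assoc, hxr, mul_one]
      have h4 : (N:ℚ) * r * (x * r) = N * r := by rw [hxr, mul_one]
      rw [h3, h4] at this
      have h5 : (N:ℚ) = N * r * x := by
        rw [mul_assoc, mul_comm r x, hxr, mul_one]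
      rw [h5]
      have h6 : (X:ℚ) * x = x * X := by ring
      rw [h6]
      have h7 : (N:ℚ) * r * x = x * (N * r) := by ring
      rw [h7]
      apply mul_lt_mul_of_pos_left _ hxpos
      linarith
    have h2 : (X:ℚ) * x < X * (M * G0) := by
      calc (X:ℚ) * x < N := h1
        _ ≤ M * X * G0 := hNq
        _ = X * (M * G0) := by ring
    exact lt_of_mul_lt_mul_left h2 hX'.le
  have hvM : v < M := by
    have h1 : (v:ℚ) < M := by
      calc (v:ℚ) ≤ x / G0 := hv1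
        _ < M := by
          rw [div_lt_iff₀ hG0'']
          exact hxM
    exact_mod_cast h1
  obtain ⟨e, heN, he1, hev, hveY⟩ := hchain v hv3 hvM
  have he0 : (0:ℚ) < e := by exact_mod_cast he1
  have heG : (e:ℚ) * G0 ≤ x := by
    have h1 : (e:ℚ) ≤ v := by exact_mod_cast hev
    have h2 : (e:ℚ) ≤ x / G0 := h1.trans hv1
    rwa [le_div_iff₀ hG0''] at h2
  have hex : (e:ℚ) ≤ x := by nlinarith
  set g := ⌈x / e⌉₊ with hg
  have hg1 : x / e ≤ g := Nat.le_ceil _
  have hg2 : (g:ℚ) < x / e + 1 := Nat.ceil_lt_add_one (by positivity)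
  have hg3 : g ≤ G0 * Y := by
    rw [hg, Nat.ceil_le, div_le_iff₀ he0]
    have h1 : ((v + 1 : ℕ) : ℚ) ≤ ((e * Y : ℕ) : ℚ) := by
      exact_mod_cast hveY
    push_cast at h1 ⊢
    have h2 : x < (v + 1) * G0 := by
      rwa [div_lt_iff₀ hG0''] at hv2
    nlinarith
  have hg4 : G0 ≤ g := by
    have h1 : (G0:ℚ) ≤ g := by
      refine le_trans ?_ hg1
      rw [le_div_iff₀ he0]
      linarith
    exact_mod_cast h1
  have hxe : x / e * (e * r) = 1 := by
    field_simp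
    linarith
  have her : (e:ℚ) * r ≤ 1 := by
    calc (e:ℚ) * r ≤ x * r := by gcongr
      _ = 1 := hxr
  have herpos : 0 < (e:ℚ) * r := by positivity
  obtain ⟨hs, hl⟩ := h.step hr0 e g he1 heN her
    (by
      calc (1:ℚ) = x / e * (e * r) := hxe.symm
        _ ≤ g * (e * r) := by gcongr
        _ = (e:ℚ) * r * g := by ring)
    (by
      have h1 : (g:ℚ) - 1 < x / e := by linarith
      calc (e:ℚ) * r * (g - 1) < (e:ℚ) * r * (x / e) := by gcongr
        _ = 1 := by rw [mul_comm]; exact hxe) hg3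
  refine ⟨_, _, _, hs, Finset.card_insert_le _ _, by simp, ?_⟩
  have hG0g : (G0:ℚ) ≤ g := by exact_mod_cast hg4
  have hr'0 := hs.2.1
  calc (r - 1 / ((e * g : ℕ) : ℚ)) * G0 ≤ (r - 1 / ((e * g : ℕ) : ℚ)) * g := by gcongr
    _ < r := hl

/-- The second phase. -/
lemma phase2 {a b N M X Y G0 : ℕ} (hG0 : 1 ≤ G0) (hX : 0 < X)
    (hchain : ∀ v : ℕ, 1 ≤ v → v < M → ∃ e : ℕ, e ∣ N ∧ 1 ≤ e ∧ e ≤ v ∧ v < e * Y)
    (hN : N ≤ M * X * G0) {S0 : Finset ℕ} {r0 : ℚ} {gs0 : List ℕ}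
    (h0 : St a b N (G0 * Y) S0 r0 gs0) (hr0 : r0 * G0 < 1) (k : ℕ) :
    ∃ (S : Finset ℕ) (r : ℚ) (gs : List ℕ), St a b N (G0 * Y) S r gs ∧
      S.card ≤ S0.card + k ∧ gs.length ≤ gs0.length + k ∧
        (r * N ≤ X ∨ r * (G0:ℚ)^(k+1) < 1) := by
  have hG0' : (1:ℚ) ≤ G0 := by exact_mod_cast hG0
  induction k with
  | zero =>
    exact ⟨S0, r0, gs0, h0, by omega, by omega, Or.inr (by simpa using hr0)⟩
  | succ k ih =>
    obtain ⟨S, r, gs, h1, h2, h3, h4⟩ := ih
    by_cases hrN : r * N ≤ X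
    · exact ⟨S, r, gs, h1, by omega, by omega, Or.inl hrN⟩
    · have h5 : r * (G0:ℚ)^(k+1) < 1 := by
        rcases h4 with h4 | h4
        · exact absurd h4 hrN
        · exact h4
      push Not at hrN
      have hr0' : 0 ≤ r := h1.2.1
      have h6 : r * G0 < 1 := by
        refine lt_of_le_of_lt ?_ h5
        have : (G0:ℚ)^1 ≤ (G0:ℚ)^(k+1) := pow_le_pow_right₀ hG0' (by omega)
        rw [pow_one] at this
        gcongr
      obtain ⟨S', r', gs', h7, h8, h9, h10⟩ := h1.step2 hG0 hX hchain hN h6 hrN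
      refine ⟨S', r', gs', h7, by omega, by omega, Or.inr ?_⟩
      have h11 : r' * (G0:ℚ)^(k+1+1) = (r' * G0) * (G0:ℚ)^(k+1) := by ring
      rw [h11]
      have h12 : (0:ℚ) < (G0:ℚ)^(k+1) := by positivity
      calc (r' * G0) * (G0:ℚ)^(k+1) < r * (G0:ℚ)^(k+1) := by gcongr
        _ < 1 := h5

/-- The full greedy process. -/
theorem real_steps (a b N M X Y G0 s K : ℕ) (ha : 1 ≤ a) (hab : a < b) (hb : b ≤ G0 * Y)
    (hG0 : 1 ≤ G0) (hY : 1 ≤ Y) (hX : 0 < X)
    (hchain : ∀ v : ℕ, 1 ≤ v → v < M → ∃ e : ℕ, e ∣ N ∧ 1 ≤ e ∧ e ≤ v ∧ v < e * Y)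
    (hN : N ≤ M * X * G0) (hs : G0 ≤ 2^(2^s)) (hK : N ≤ X * G0^(K+1)) :
    ∃ (S : Finset ℕ) (r : ℚ) (gs : List ℕ), St a b N (G0 * Y) S r gs ∧
      S.card ≤ s + K + 1 ∧ gs.length ≤ s + K + 2 ∧ r * N ≤ X := by
  have hb0 : 0 < b := by omega
  have hb' : (0:ℚ) < b := by exact_mod_cast hb0
  have hG0' : (1:ℚ) ≤ G0 := by exact_mod_cast hG0
  have hX' : (0:ℚ) < X := by exact_mod_cast hX
  have h0 : St a b N (G0 * Y) ∅ ((a:ℚ)/b) [b] := by
    refine ⟨by simp, by positivity, ?_, ⟨a * N, ?_⟩, ?_, by simp⟩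
    · rw [div_lt_one hb']
      exact_mod_cast hab
    · simp only [List.prod_cons, List.prod_nil, mul_one]
      push_cast
      field_simp
    · intro g hg
      simp only [List.mem_singleton] at hg
      subst hg
      exact ⟨by omega, hb⟩
  obtain ⟨S1, r1, gs1, h1, h2, h3, h4⟩ := phase1 (G0 := G0) (Nat.le_mul_of_pos_right _ hY) h0 s
  have h5 : r1 * G0 < 1 := by
    rcases h4 with h4 | h4
    · exact h4
    · have h6 : ((G0:ℕ):ℚ) ≤ ((2^(2^s) : ℕ) : ℚ) := by exact_mod_cast hs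
      have h7 : ((1:ℚ)/2)^(2^s) * ((2^(2^s) : ℕ) : ℚ) = 1 := by
        push_cast
        rw [← mul_pow]
        norm_num
      have h8 : (0:ℚ) < ((1:ℚ)/2)^(2^s) := by positivity
      have h9 : 0 ≤ r1 := h1.2.1
      calc r1 * G0 < ((1:ℚ)/2)^(2^s) * G0 := by gcongr
        _ ≤ ((1:ℚ)/2)^(2^s) * ((2^(2^s) : ℕ) : ℚ) := by gcongr
        _ = 1 := h7
  obtain ⟨S2, r2, gs2, h6, h7, h8, h9⟩ := phase2 hG0 hX hchain hN h1 h5 K
  refine ⟨S2, r2, gs2, h6, ?_, ?_, ?_⟩
  · simp only [Finset.card_empty, zero_add] at h2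
    omega
  · simp only [List.length_cons, List.length_nil, zero_add] at h3
    omega
  · rcases h9 with h9 | h9
    · exact h9
    · have hNq : (N:ℚ) ≤ X * (G0:ℚ)^(K+1) := by exact_mod_cast hK
      have hr0 : 0 ≤ r2 := h6.2.1
      calc r2 * N ≤ r2 * (X * (G0:ℚ)^(K+1)) := by gcongr
        _ = (r2 * (G0:ℚ)^(K+1)) * X := by ring
        _ ≤ 1 * X := by gcongr
        _ = X := by ring

end Vale.Agent.Lib.P012c
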