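import Mathlib
import Vale.Agent.Lib.P012c.Merge
import Vale.Agent.Lib.P012c.Digits
import Vale.Agent.Lib.P012c.RealSteps

/-!
Assembling the greedy part, the digit expansion and the merging into one statement.
-/

namespace Vale.Agent.Lib.P012c

open Finset

theorem core_main (a b E κ N0 M X Y G0 B s K : ℕ) (Good : ℕ → Prop)
    (ha : 1 ≤ a) (hab : a < b) (hb : b ≤ G0 * Y) (hG0 : 1 ≤ G0) (hY : 1 ≤ Y) (hX : 0 < X)
    (hN0 : 0 < N0)
    (hchain : ∀ v : ℕ, 1 ≤ v → v < M → ∃ e : ℕ, e ∣ 2^E * N0 ∧ 1 ≤ e ∧ e ≤ v ∧ v < e * Y)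
    (hN : 2^E * N0 ≤ M * X * G0) (hs : G0 ≤ 2^(2^s)) (hK : 2^E * N0 ≤ X * G0^(K+1))
    (hBX : B ≤ X)
    (hU : ∀ R : ℕ, 1 ≤ R → R ≤ X → Good R → DigitRep E κ ((R:ℚ) / (2^E * N0)))
    (hB1 : ∀ t : ℕ, 1 ≤ t → t ≤ B → Good t) (hB2 : ∀ w : ℕ, B < w → ∃ j ≤ B, Good (w - j))
    (hBG : (B + 1) * (G0 * Y) ≤ X) (hE : κ * (s + K + 4) ≤ 2^E) :
    ∃ S : Finset ℕ, (∀ n ∈ S, 2 ≤ n) ∧ S.card ≤ s + K + 1 + κ * (s + K + 4) ∧
      ∑ n ∈ S, (1:ℚ)/n = (a:ℚ)/b := by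
  obtain ⟨S, r, gs, hSt, hcard, hlen, hrN⟩ :=
    real_steps a b (2^E * N0) M X Y G0 s K ha hab hb hG0 hY hX hchain hN hs hK
  obtain ⟨h1, h2, h3, ⟨k, hk⟩, h5, h6⟩ := hSt
  have hNpos : (0:ℚ) < ((2^E * N0 : ℕ) : ℚ) := by
    have : 0 < 2^E * N0 := by positivity
    exact_mod_cast this
  set z : ℚ := r * ((2^E * N0 : ℕ) : ℚ) with hz
  have hdig := digits E κ N0 X B (G0 * Y) Good hBX hU hB1 hB2 hBG gs h5 z (by positivity) hrN
    ⟨k, hk⟩
  have hzr : z / (2^E * N0) = r := by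
    rw [hz]
    push_cast at hNpos ⊢
    field_simp
  rw [hzr] at hdig
  obtain ⟨L, hL1, hL2, hL3⟩ := hdig
  have hLlen : L.length ≤ κ * (s + K + 4) := hL1.trans (Nat.mul_le_mul_left _ (by omega))
  obtain ⟨T, hT1, hT2, hT3⟩ := merge_list E L (hLlen.trans hE) hL2
  rw [← hL3] at hT3
  have hTlarge : ∀ n ∈ T, 1 ≤ (n:ℚ) * r := by
    intro n hn
    have hn0 : (0:ℚ) < n := by exact_mod_cast hT2 n hn
    have h7 : (1:ℚ)/n ≤ ∑ m ∈ T, (1:ℚ)/m := by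
      apply Finset.single_le_sum (f := fun m : ℕ => (1:ℚ)/m) (fun i _ => by positivity) hn
    rw [hT3] at h7
    rw [div_le_iff₀ hn0] at h7
    linarith
  have hdisj : Disjoint S T := by
    rw [Finset.disjoint_left]
    intro n hnS hnT
    have := hTlarge n hnT
    have h8 := (h6 n hnS).2
    linarith
  refine ⟨S ∪ T, ?_, ?_, ?_⟩
  · intro n hn
    rcases Finset.mem_union.1 hn with hn | hn
    · exact (h6 n hn).1
    · have h7 := hTlarge n hn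
      by_contra hlt
      push Not at hlt
      have h8 : n ≤ 1 := by omega
      have h9 : (n:ℚ) ≤ 1 := by exact_mod_cast h8
      have h10 : (0:ℚ) ≤ n := by positivity
      nlinarith
  · rw [Finset.card_union_of_disjoint hdisj]
    have := hT1.trans hLlen
    omega
  · rw [Finset.sum_union hdisj, hT3, h1]

end Vale.Agent.Lib.P012c
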