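import Mathlib

/-!
A lower bound for the number of primes in `(B, Y]`, from the Chebyshev bound in Mathlib.
-/

namespace Vale.Agent.Lib.P012c

open Finset

/-- The universe of primes. -/
def primeUniverse (B Y : ℕ) : Finset ℕ := (Ioc B Y).filter Nat.Prime

lemma primeCounting_le_add (B Y : ℕ) :
    Nat.primeCounting Y ≤ B + 1 + (primeUniverse B Y).card := by
  have h1 : Nat.primeCounting Y = ((range (Y + 1)).filter Nat.Prime).card := by
    rw [Nat.primeCounting, Nat.primeCounting', Nat.count_eq_card_filter_range]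
  rw [h1]
  have h2 : (range (Y + 1)).filter Nat.Prime ⊆ range (B + 1) ∪ primeUniverse B Y := by
    intro p hp
    obtain ⟨h3, h4⟩ := Finset.mem_filter.1 hp
    rw [Finset.mem_union]
    by_cases h5 : p ≤ B
    · exact Or.inl (Finset.mem_range.2 (by omega))
    · refine Or.inr (Finset.mem_filter.2 ⟨Finset.mem_Ioc.2 ⟨by omega, ?_⟩, h4⟩)
      have := Finset.mem_range.1 h3
      omega
  refine (Finset.card_le_card h2).trans ((Finset.card_union_le _ _).trans ?_)
  simp

lemma chebyshev_two_pow (w : ℕ) (hw : 1 ≤ w) :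
    2 ^ w ≤ w * Nat.primeCounting (2 ^ w) + w + 1 := by
  set Y := 2 ^ w with hY
  have hY2 : 2 ≤ Y := by
    calc 2 = 2 ^ 1 := by norm_num
      _ ≤ 2 ^ w := Nat.pow_le_pow_right (by norm_num) hw
  have hlog2 : 0 < Real.log 2 := Real.log_pos (by norm_num)
  have hlogY : Real.log Y = w * Real.log 2 := by
    rw [hY]
    push_cast
    rw [Real.log_pow]
  have hw' : (0:ℝ) < w := by exact_mod_cast hw
  have hY' : (2:ℝ) ≤ Y := by exact_mod_cast hY2
  have hlogY1 : Real.log ((Y:ℝ) + 1) ≤ ((w:ℝ) + 1) * Real.log 2 := by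
    have h1 : (Y:ℝ) + 1 ≤ 2 ^ (w + 1) := by
      have : (2:ℝ) ^ (w + 1) = 2 * Y := by
        rw [hY]
        push_cast
        ring
      rw [this]
      linarith
    have h2 := Real.log_le_log (by positivity) h1
    rw [Real.log_pow] at h2
    push_cast at h2
    exact h2
  have h := Chebyshev.pi_ge Y
  have hlogYpos : 0 < Real.log Y := by
    rw [hlogY]
    positivity
  rw [div_le_iff₀ hlogYpos, hlogY] at h
  have h3 : (Y:ℝ) * Real.log 2 - ((w:ℝ) + 1) * Real.log 2 ≤
      (Nat.primeCounting Y : ℝ) * ((w:ℝ) * Real.log 2) := by linarith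
  have h4 : (Y:ℝ) - ((w:ℝ) + 1) ≤ (Nat.primeCounting Y : ℝ) * (w:ℝ) := by
    have e : (Y:ℝ) * Real.log 2 - ((w:ℝ) + 1) * Real.log 2 = ((Y:ℝ) - ((w:ℝ) + 1)) * Real.log 2 := by
      ring
    have e2 : (Nat.primeCounting Y : ℝ) * ((w:ℝ) * Real.log 2) =
        ((Nat.primeCounting Y : ℝ) * (w:ℝ)) * Real.log 2 := by ring
    rw [e, e2] at h3
    exact le_of_mul_le_mul_right h3 hlog2
  have h5 : (Y:ℝ) ≤ ((w * Nat.primeCounting Y + w + 1 : ℕ) : ℝ) := by
    push_cast
    linarith
  exact_mod_cast h5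

/-- The number of primes in `(8 * 2^s, 2^(16 s)]` is at least `2^(16 s) / (32 s)`. -/
theorem prime_universe_large (s : ℕ) (hs : 1 ≤ s) :
    2 ^ (16 * s) ≤ 32 * s * (primeUniverse (8 * 2 ^ s) (2 ^ (16 * s))).card ∧
      0 < (primeUniverse (8 * 2 ^ s) (2 ^ (16 * s))).card := by
  set w := 16 * s with hw
  set B := 8 * 2 ^ s with hB
  set U := (primeUniverse B (2 ^ w)).card with hU
  have h1 := chebyshev_two_pow w (by omega)
  have h2 := primeCounting_le_add B (2 ^ w)
  rw [← hU] at h2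
  have h3 : 2 ^ w ≤ w * (B + 1 + U) + w + 1 := by
    refine h1.trans ?_
    have := Nat.mul_le_mul_left w h2
    omega
  have hslt : s < 2 ^ s := Nat.lt_two_pow_self
  have hbig : 2 * w * (B + 3) + 1 ≤ 2 ^ w := by
    have h4 : 2 ^ (2 * s + 9) ≤ 2 ^ w := Nat.pow_le_pow_right (by norm_num) (by omega)
    have h5 : 2 ^ (2 * s + 9) = 512 * (2 ^ s * 2 ^ s) := by
      rw [pow_add, pow_mul', pow_two]
      ring
    have hB3 : B + 3 ≤ 11 * 2 ^ s := by
      have : 1 ≤ 2 ^ s := Nat.one_le_two_pow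
      omega
    have h6 : w ≤ 16 * 2 ^ s := by omega
    have h7 : 2 * w * (B + 3) ≤ 2 * (16 * 2 ^ s) * (11 * 2 ^ s) := by gcongr
    have h8 : 2 * (16 * 2 ^ s) * (11 * 2 ^ s) = 352 * (2 ^ s * 2 ^ s) := by ring
    have h9 : 1 ≤ 2 ^ s * 2 ^ s := by
      have : 1 ≤ 2 ^ s := Nat.one_le_two_pow
      nlinarith
    omega
  have hUB : B + 3 ≤ U := by
    by_contra hcon
    push Not at hcon
    have h10 : w * (B + 1 + U) + w + 1 ≤ 2 * w * (B + 3) := by
      have h11 : B + 1 + U + 1 ≤ 2 * (B + 3) := by omega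
      have h12 : w * (B + 1 + U + 1) ≤ w * (2 * (B + 3)) := Nat.mul_le_mul_left _ h11
      have h13 : 1 ≤ w := by omega
      nlinarith
    have hwpos : 0 < w := by omega
    have hB0 : 0 < B + 3 := by omega
    have h14 : 0 < 2 * w * (B + 3) := by positivity
    omega
  constructor
  · have h15 : w * (B + 3) ≤ w * U := Nat.mul_le_mul_left _ hUB
    have e : 32 * s = 2 * w := by omega
    rw [e]
    have h16 : w * (B + 1 + U) + w + 1 ≤ 2 * w * U := by
      have h17 : w * (B + 1 + U) + w = w * U + w * (B + 2) := by ring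
      have h18 : w * (B + 2) + 1 ≤ w * (B + 3) := by
        have h13 : 1 ≤ w := by omega
        nlinarith
      have h19 : 2 * w * U = w * U + w * U := by ring
      omega
    omega
  · omega

end Vale.Agent.Lib.P012c
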