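import Mathlib

/-!
Fourier positivity: from bounds on exponential sums deduce that some choice of elements from
given multisets has sum divisible by `R`.
-/

namespace Vale.Agent.Lib.P012c

open Finset

/-- The exponential sum of a multiset. -/
noncomputable def ghat (M : Multiset ℕ) (ω : ℂ) : ℂ := (M.map (fun x => ω ^ x)).sum

lemma ghat_one (M : Multiset ℕ) : ghat M 1 = (Multiset.card M : ℂ) := by
  simp [ghat]

lemma norm_ghat_le (M : Multiset ℕ) {ω : ℂ} (hω : ‖ω‖ = 1) :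
    ‖ghat M ω‖ ≤ (Multiset.card M : ℝ) := by
  induction M using Multiset.induction_on with
  | empty => simp [ghat]
  | cons x M ih =>
    have h : ghat (x ::ₘ M) ω = ω ^ x + ghat M ω := by simp [ghat]
    rw [h, Multiset.card_cons]
    push_cast
    refine (norm_add_le _ _).trans ?_
    rw [norm_pow, hω, one_pow]
    linarith

lemma sum_geom_ne_zero {R s : ℕ} {ζ : ℂ} (hζ : IsPrimitiveRoot ζ R)
    (h : ∑ t ∈ range R, ζ ^ (t * s) ≠ 0) : R ∣ s := by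
  by_contra hdvd
  apply h
  have hne : ζ ^ s ≠ 1 := fun e => hdvd ((hζ.pow_eq_one_iff_dvd s).1 e)
  have e1 : ∑ t ∈ range R, ζ ^ (t * s) = ∑ t ∈ range R, (ζ ^ s) ^ t := by
    refine Finset.sum_congr rfl fun t _ => ?_
    rw [← pow_mul, mul_comm]
  rw [e1, geom_sum_eq hne, ← pow_mul, mul_comm, pow_mul, hζ.pow_eq_one]
  simp

lemma sum_range_multiset {α : Type*} (M : Multiset α) (R : ℕ) (F : ℕ → α → ℂ) :
    ∑ t ∈ range R, (M.map (F t)).sum = (M.map (fun x => ∑ t ∈ range R, F t x)).sum := by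
  induction M using Multiset.induction_on with
  | empty => simp
  | cons x M ih =>
    simp only [Multiset.map_cons, Multiset.sum_cons, Finset.sum_add_distrib, ih]

/-- If the Fourier transform is nonzero there is a choice with sum divisible by `R`. -/
theorem exists_choice {R : ℕ} {ζ : ℂ} (hR : 0 < R) (hζ : IsPrimitiveRoot ζ R) :
    ∀ (L : List (Multiset ℕ)) (s : ℕ),
      ∑ t ∈ range R, (L.map (fun M => ghat M (ζ ^ t))).prod * ζ ^ (t * s) ≠ 0 →
      ∃ xs : List ℕ, List.Forall₂ (fun x M => x ∈ M) xs L ∧ R ∣ s + xs.sum := by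
  intro L
  induction L with
  | nil =>
    intro s h
    refine ⟨[], List.Forall₂.nil, ?_⟩
    simp only [List.sum_nil, add_zero]
    apply sum_geom_ne_zero hζ
    simpa using h
  | cons M L ih =>
    intro s h
    have e1 : ∀ t ∈ range R, ((M :: L).map (fun M => ghat M (ζ ^ t))).prod * ζ ^ (t * s) =
        (M.map (fun x => (L.map (fun M => ghat M (ζ ^ t))).prod * ζ ^ (t * (s + x)))).sum := by
      intro t _
      simp only [List.map_cons, List.prod_cons, ghat]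
      rw [mul_comm (M.map _).sum, mul_assoc, mul_comm (M.map _).sum, ← Multiset.sum_map_mul_left]
      rw [← Multiset.sum_map_mul_left]
      congr 1
      apply Multiset.map_congr rfl
      intro x _
      rw [mul_add, pow_add, ← pow_mul]
    rw [Finset.sum_congr rfl e1, sum_range_multiset] at h
    have h2 : ∃ x ∈ M, ∑ t ∈ range R, (L.map (fun M => ghat M (ζ ^ t))).prod *
        ζ ^ (t * (s + x)) ≠ 0 := by
      by_contra hcon
      push Not at hcon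
      apply h
      apply Multiset.sum_eq_zero
      intro y hy
      obtain ⟨x, hx, rfl⟩ := Multiset.mem_map.1 hy
      exact hcon x hx
    obtain ⟨x, hx, hxne⟩ := h2
    obtain ⟨xs, hxs, hdvd⟩ := ih (s + x) hxne
    refine ⟨x :: xs, List.Forall₂.cons hx hxs, ?_⟩
    simp only [List.sum_cons]
    rwa [← add_assoc]

/-- The number of `t < R` with `(ζ ^ t) ^ a = 1` is at most `a` when `a ∣ R`. -/
lemma card_pow_eq_one_le {R a : ℕ} {ζ : ℂ} (hR : 0 < R) (hζ : IsPrimitiveRoot ζ R) (ha : a ∣ R) :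
    ((range R).filter (fun t => (ζ ^ t) ^ a = 1)).card ≤ a := by
  obtain ⟨d, hd⟩ := ha
  have ha0 : 0 < a := Nat.pos_of_ne_zero (by rintro rfl; simp at hd; omega)
  have hd0 : 0 < d := Nat.pos_of_ne_zero (by rintro rfl; simp at hd; omega)
  have hdt : ∀ t ∈ (range R).filter (fun t => (ζ ^ t) ^ a = 1), d ∣ t ∧ t < R := by
    intro t ht
    obtain ⟨h1, h2⟩ := Finset.mem_filter.1 ht
    rw [← pow_mul, hζ.pow_eq_one_iff_dvd, hd, mul_comm t a] at h2
    exact ⟨Nat.dvd_of_mul_dvd_mul_left ha0 h2, Finset.mem_range.1 h1⟩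
  have h := Finset.card_le_card_of_injOn (s := (range R).filter (fun t => (ζ ^ t) ^ a = 1))
    (t := range a) (fun t => t / d) (by
      intro t ht
      obtain ⟨h1, h2⟩ := hdt t ht
      simp only [Finset.coe_range, Set.mem_Iio]
      rw [hd, mul_comm] at h2
      exact Nat.div_lt_of_lt_mul h2) (by
      intro t ht t' ht' e
      obtain ⟨h1, _⟩ := hdt t ht
      obtain ⟨h1', _⟩ := hdt t' ht'
      have e' : t / d = t' / d := e
      calc t = d * (t / d) := (Nat.mul_div_cancel' h1).symm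
        _ = d * (t' / d) := by rw [e']
        _ = t' := Nat.mul_div_cancel' h1')
  simpa using h

/-- The elementary geometric sum bound. -/
lemma norm_sum_range_pow_le {ω : ℂ} {a : ℕ} (ha : 2 ≤ a) (hω : IsPrimitiveRoot ω a) (Z : ℕ) :
    ‖∑ m ∈ range Z, ω ^ m‖ ≤ a := by
  have hne : ω ≠ 1 := hω.ne_one (by omega)
  have hnorm : ‖ω‖ = 1 := hω.norm'_eq_one (by omega)
  have e : ∑ m ∈ range Z, ω ^ m = ∑ m ∈ range (Z % a), ω ^ m := by
    rw [geom_sum_eq hne, geom_sum_eq hne]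
    congr 2
    conv_lhs => rw [← Nat.mod_add_div Z a, pow_add, pow_mul, hω.pow_eq_one, one_pow, mul_one]
  rw [e]
  refine (norm_sum_le _ _).trans ?_
  have h2 : ∀ m ∈ range (Z % a), ‖ω ^ m‖ = 1 := by
    intro m _
    rw [norm_pow, hnorm, one_pow]
  rw [Finset.sum_congr rfl h2]
  simp only [Finset.sum_const, Finset.card_range, nsmul_eq_mul, mul_one]
  have h3 : Z % a ≤ a := (Nat.mod_lt _ (by omega)).le
  exact_mod_cast h3

/-- The numerical inequality for the total weight. -/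
lemma weight_sum_lt (R A2 : ℕ) (hA2 : 3 ≤ A2) :
    ∑ a ∈ Icc 2 R, (a:ℝ) * (if a < A2 then (a:ℝ)^3 / ((A2^2 : ℕ) : ℝ)^3 else 1 / (a:ℝ)^3) < 1 := by
  have hA2' : (3:ℝ) ≤ A2 := by exact_mod_cast hA2
  have hA20 : (0:ℝ) < A2 := by linarith
  rw [← Finset.sum_filter_add_sum_filter_not (Icc 2 R) (fun a => a < A2)]
  have h1 : ∑ a ∈ (Icc 2 R).filter (fun a => a < A2),
      (a:ℝ) * (if a < A2 then (a:ℝ)^3 / ((A2^2 : ℕ) : ℝ)^3 else 1 / (a:ℝ)^3) ≤ 1 / (A2:ℝ) := by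
    have h2 : ∀ a ∈ (Icc 2 R).filter (fun a => a < A2),
        (a:ℝ) * (if a < A2 then (a:ℝ)^3 / ((A2^2 : ℕ) : ℝ)^3 else 1 / (a:ℝ)^3) ≤
          1 / (A2:ℝ)^2 := by
      intro a ha
      have ha2 := (Finset.mem_filter.1 ha).2
      rw [if_pos ha2]
      have ha3 : (a:ℝ) ≤ A2 := by exact_mod_cast ha2.le
      have ha0 : (0:ℝ) ≤ a := by positivity
      have e : (a:ℝ) * ((a:ℝ)^3 / ((A2^2 : ℕ) : ℝ)^3) = (a:ℝ)^4 / (A2:ℝ)^6 := by
        push_cast
        rw [← pow_mul]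
        ring
      rw [e, div_le_div_iff₀ (by positivity) (by positivity)]
      have h3 : (a:ℝ)^4 ≤ (A2:ℝ)^4 := pow_le_pow_left₀ ha0 ha3 4
      calc (a:ℝ)^4 * (A2:ℝ)^2 ≤ (A2:ℝ)^4 * (A2:ℝ)^2 := by gcongr
        _ = 1 * (A2:ℝ)^6 := by ring
    refine (Finset.sum_le_sum h2).trans ?_
    rw [Finset.sum_const, nsmul_eq_mul]
    have h3 : ((Icc 2 R).filter (fun a => a < A2)).card ≤ A2 := by
      have : (Icc 2 R).filter (fun a => a < A2) ⊆ range A2 := by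
        intro a ha
        exact Finset.mem_range.2 (Finset.mem_filter.1 ha).2
      simpa using Finset.card_le_card this
    have h4 : (((Icc 2 R).filter (fun a => a < A2)).card : ℝ) ≤ A2 := by exact_mod_cast h3
    calc (((Icc 2 R).filter (fun a => a < A2)).card : ℝ) * (1 / (A2:ℝ)^2)
        ≤ (A2:ℝ) * (1 / (A2:ℝ)^2) := by gcongr
      _ = 1 / (A2:ℝ) := by field_simp
  have h2 : ∑ a ∈ (Icc 2 R).filter (fun a => ¬ a < A2),
      (a:ℝ) * (if a < A2 then (a:ℝ)^3 / ((A2^2 : ℕ) : ℝ)^3 else 1 / (a:ℝ)^3) ≤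
        1 / ((A2 - 1 : ℕ) : ℝ) := by
    have h3 : ∀ a ∈ (Icc 2 R).filter (fun a => ¬ a < A2),
        (a:ℝ) * (if a < A2 then (a:ℝ)^3 / ((A2^2 : ℕ) : ℝ)^3 else 1 / (a:ℝ)^3) =
          ((a:ℝ)^2)⁻¹ := by
      intro a ha
      have ha2 := (Finset.mem_filter.1 ha).2
      rw [if_neg ha2]
      have ha3 := (Finset.mem_Icc.1 (Finset.mem_filter.1 ha).1).1
      have ha0 : (a:ℝ) ≠ 0 := by
        have : 0 < a := by omega
        positivity
      field_simp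
    rw [Finset.sum_congr rfl h3]
    have hsub : (Icc 2 R).filter (fun a => ¬ a < A2) ⊆ Ioc (A2 - 1) (max R (A2 - 1)) := by
      intro a ha
      have h4 := (Finset.mem_filter.1 ha).2
      have h5 := (Finset.mem_Icc.1 (Finset.mem_filter.1 ha).1).2
      rw [Finset.mem_Ioc]
      exact ⟨by omega, le_max_of_le_left h5⟩
    refine (Finset.sum_le_sum_of_subset_of_nonneg hsub (fun _ _ _ => by positivity)).trans ?_
    have h6 := sum_Ioc_inv_sq_le_sub (α := ℝ) (k := A2 - 1) (n := max R (A2 - 1)) (by omega)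
      (le_max_right _ _)
    refine h6.trans ?_
    have h7 : (0:ℝ) ≤ (((max R (A2 - 1) : ℕ) : ℝ))⁻¹ := by positivity
    rw [one_div]
    linarith
  have h3 : (1:ℝ) / (A2:ℝ) + 1 / ((A2 - 1 : ℕ) : ℝ) < 1 := by
    have h4 : (2:ℝ) ≤ ((A2 - 1 : ℕ) : ℝ) := by
      have : 2 ≤ A2 - 1 := by omega
      exact_mod_cast this
    have h5 : (1:ℝ) / (A2:ℝ) ≤ 1 / 3 := one_div_le_one_div_of_le (by norm_num) hA2'
    have h6 : (1:ℝ) / ((A2 - 1 : ℕ) : ℝ) ≤ 1 / 2 := one_div_le_one_div_of_le (by norm_num) h4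
    linarith
  linarith

/-- The main nonvanishing statement. -/
theorem sum_psi_ne_zero {R A2 T Z : ℕ} {ζ : ℂ} (hR : 0 < R) (hζ : IsPrimitiveRoot ζ R)
    (hA2 : 3 ≤ A2) (hZ : Z = A2 ^ 2) (hT : 0 < T) (g0 gB : ℂ → ℂ)
    (hg01 : g0 1 = Z) (hgB1 : gB 1 = T)
    (hg0a : ∀ (ω : ℂ) (a : ℕ), 2 ≤ a → IsPrimitiveRoot ω a → ‖g0 ω‖ ≤ a)
    (hg0Z : ∀ ω : ℂ, ‖ω‖ = 1 → ‖g0 ω‖ ≤ Z)
    (hgBT : ∀ ω : ℂ, ‖ω‖ = 1 → ‖gB ω‖ ≤ T)
    (hgB : ∀ (ω : ℂ) (a : ℕ), A2 ≤ a → a ∣ R → IsPrimitiveRoot ω a →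
      ‖gB ω‖ ^ 2 * a ≤ (T:ℝ) ^ 2) :
    ∑ t ∈ range R, (g0 (ζ ^ t)) ^ 3 * (gB (ζ ^ t)) ^ 6 ≠ 0 := by
  have hZ0 : 0 < Z := by rw [hZ]; positivity
  have hZ' : (0:ℝ) < Z := by exact_mod_cast hZ0
  have hT' : (0:ℝ) < T := by exact_mod_cast hT
  set T0 : ℝ := (Z:ℝ)^3 * (T:ℝ)^6 with hT0
  have hT0pos : 0 < T0 := by positivity
  set b : ℕ → ℝ := fun a => if a < A2 then (a:ℝ)^3 / ((A2^2 : ℕ) : ℝ)^3 else 1 / (a:ℝ)^3 with hb
  have hbnn : ∀ a, 0 ≤ b a := by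
    intro a
    rw [hb]
    simp only
    split_ifs <;> positivity
  set ord : ℕ → ℕ := fun t => orderOf (ζ ^ t) with hord
  have hord1 : ∀ t, ord t ∣ R := by
    intro t
    apply orderOf_dvd_of_pow_eq_one
    rw [← pow_mul, mul_comm, pow_mul, hζ.pow_eq_one, one_pow]
  have hordpos : ∀ t, 0 < ord t := fun t => Nat.pos_of_dvd_of_pos (hord1 t) hR
  have hord2 : ∀ t ∈ Ico 1 R, 2 ≤ ord t := by
    intro t ht
    have ht' := Finset.mem_Ico.1 ht
    have h1 : ζ ^ t ≠ 1 := hζ.pow_ne_one_of_pos_of_lt (by omega) ht'.2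
    have h2 : ord t ≠ 1 := fun h => h1 (orderOf_eq_one_iff.1 h)
    have h3 := hordpos t
    omega
  have hbound : ∀ t ∈ Ico 1 R, ‖(g0 (ζ ^ t)) ^ 3 * (gB (ζ ^ t)) ^ 6‖ ≤ T0 * b (ord t) := by
    intro t ht
    have hprim : IsPrimitiveRoot (ζ ^ t) (ord t) := IsPrimitiveRoot.orderOf _
    have hnorm : ‖ζ ^ t‖ = 1 := by
      rw [norm_pow, hζ.norm'_eq_one hR.ne', one_pow]
    have h1 := hg0Z _ hnorm
    have h2 := hgBT _ hnorm
    have hge2 := hord2 t ht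
    have ha0 : (0:ℝ) < ord t := by exact_mod_cast hordpos t
    rw [norm_mul, norm_pow, norm_pow, hb]
    simp only
    by_cases hcase : ord t < A2
    · rw [if_pos hcase]
      have h3 := hg0a _ _ hge2 hprim
      have e : T0 * ((ord t:ℝ)^3 / ((A2^2 : ℕ) : ℝ)^3) = (ord t:ℝ)^3 * (T:ℝ)^6 := by
        rw [hT0, ← hZ]
        field_simp
      rw [e]
      gcongr
    · rw [if_neg hcase]
      have h3 := hgB _ _ (not_lt.1 hcase) (hord1 t) hprim
      have h4 : (‖gB (ζ ^ t)‖ ^ 2)^3 * ((ord t:ℝ))^3 ≤ ((T:ℝ)^2)^3 := by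
        rw [← mul_pow]
        exact pow_le_pow_left₀ (by positivity) h3 3
      have e : T0 * (1 / (ord t:ℝ)^3) = (Z:ℝ)^3 * ((T:ℝ)^6 / (ord t:ℝ)^3) := by
        rw [hT0]
        ring
      rw [e]
      have h5 : ‖gB (ζ ^ t)‖ ^ 6 ≤ (T:ℝ)^6 / (ord t:ℝ)^3 := by
        rw [le_div_iff₀ (by positivity)]
        calc ‖gB (ζ ^ t)‖ ^ 6 * (ord t:ℝ)^3 = (‖gB (ζ ^ t)‖ ^ 2)^3 * ((ord t:ℝ))^3 := by ring
          _ ≤ ((T:ℝ)^2)^3 := h4
          _ = (T:ℝ)^6 := by ring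
      gcongr
  have hsum : ∑ t ∈ Ico 1 R, b (ord t) ≤ ∑ a ∈ Icc 2 R, (a:ℝ) * b a := by
    have hmaps : ∀ t ∈ Ico 1 R, ord t ∈ Icc 2 R := by
      intro t ht
      exact Finset.mem_Icc.2 ⟨hord2 t ht, Nat.le_of_dvd hR (hord1 t)⟩
    rw [← Finset.sum_fiberwise_of_maps_to hmaps]
    refine Finset.sum_le_sum fun a ha => ?_
    have h1 : ∀ t ∈ (Ico 1 R).filter (fun t => ord t = a), b (ord t) = b a := by
      intro t ht
      rw [(Finset.mem_filter.1 ht).2]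
    rw [Finset.sum_congr rfl h1, Finset.sum_const, nsmul_eq_mul]
    by_cases hadvd : a ∣ R
    · have h2 : (Ico 1 R).filter (fun t => ord t = a) ⊆
          (range R).filter (fun t => (ζ ^ t) ^ a = 1) := by
        intro t ht
        obtain ⟨h3, h4⟩ := Finset.mem_filter.1 ht
        refine Finset.mem_filter.2 ⟨Finset.mem_range.2 (Finset.mem_Ico.1 h3).2, ?_⟩
        rw [← h4]
        exact pow_orderOf_eq_one _
      have h3 := (Finset.card_le_card h2).trans (card_pow_eq_one_le hR hζ hadvd)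
      have h4 : (((Ico 1 R).filter (fun t => ord t = a)).card : ℝ) ≤ a := by exact_mod_cast h3
      exact mul_le_mul_of_nonneg_right h4 (hbnn a)
    · have h2 : (Ico 1 R).filter (fun t => ord t = a) = ∅ := by
        apply Finset.filter_eq_empty_iff.2
        intro t _ h3
        exact hadvd (h3 ▸ hord1 t)
      rw [h2]
      simp only [Finset.card_empty, Nat.cast_zero, zero_mul]
      exact mul_nonneg (by positivity) (hbnn a)
  have hw := weight_sum_lt R A2 hA2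
  have hw' : ∑ t ∈ Ico 1 R, b (ord t) < 1 := lt_of_le_of_lt hsum hw
  have hnormsum : ‖∑ t ∈ Ico 1 R, (g0 (ζ ^ t)) ^ 3 * (gB (ζ ^ t)) ^ 6‖ < T0 := by
    calc ‖∑ t ∈ Ico 1 R, (g0 (ζ ^ t)) ^ 3 * (gB (ζ ^ t)) ^ 6‖
        ≤ ∑ t ∈ Ico 1 R, ‖(g0 (ζ ^ t)) ^ 3 * (gB (ζ ^ t)) ^ 6‖ := norm_sum_le _ _
      _ ≤ ∑ t ∈ Ico 1 R, T0 * b (ord t) := Finset.sum_le_sum hbound
      _ = T0 * ∑ t ∈ Ico 1 R, b (ord t) := by rw [Finset.mul_sum]
      _ < T0 * 1 := by gcongr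
      _ = T0 := by ring
  intro hzero
  rw [Finset.range_eq_Ico, Finset.sum_eq_sum_Ico_succ_bot hR] at hzero
  simp only [zero_add, pow_zero, hg01, hgB1] at hzero
  have e : ∑ k ∈ Ico 1 R, g0 (ζ ^ k) ^ 3 * gB (ζ ^ k) ^ 6 = - ((Z:ℂ)^3 * (T:ℂ)^6) :=
    eq_neg_of_add_eq_zero_right hzero
  rw [e, norm_neg] at hnormsum
  have h2 : ‖(Z:ℂ)^3 * (T:ℂ)^6‖ = T0 := by
    rw [norm_mul, norm_pow, norm_pow, Complex.norm_natCast, Complex.norm_natCast]
  rw [h2] at hnormsum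
  exact lt_irrefl _ hnormsum

end Vale.Agent.Lib.P012c
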