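import Mathlib
import Vale.Agent.Lib.P012c.FirstMoment
import Vale.Agent.Lib.P012c.Bilinear
import Vale.Agent.Lib.P012c.Fourier

/-!
Every small `R` coprime to the chosen primes divides a sum of `27` divisors of `N0`.
-/

namespace Vale.Agent.Lib.P012c

open Finset

/-- The products of sub-products of two tuples of primes. -/
noncomputable def fam {n : ℕ} (P : Fin 8 → Fin n → ℕ) (i i' : Fin 8) : Multiset ℕ :=
  (univ : Finset (Finset (Fin n) × Finset (Fin n))).val.map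
    (fun q => (∏ c ∈ q.1, P i c) * (∏ c ∈ q.2, P i' c))

lemma ghat_fam {n : ℕ} (P : Fin 8 → Fin n → ℕ) (i i' : Fin 8) (ω : ℂ) :
    ghat (fam P i i') ω = ∑ A : Finset (Fin n), ∑ B : Finset (Fin n),
      ω ^ ((∏ c ∈ A, P i c) * (∏ c ∈ B, P i' c)) := by
  unfold ghat fam
  rw [Multiset.map_map, ← Finset.sum_product']
  rfl

lemma card_fam {n : ℕ} (P : Fin 8 → Fin n → ℕ) (i i' : Fin 8) :
    Multiset.card (fam P i i') = 4 ^ n := by
  unfold fam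
  rw [Multiset.card_map, Finset.card_val, Finset.card_univ, Fintype.card_prod,
    Fintype.card_finset, Fintype.card_fin, ← mul_pow]
  norm_num

lemma energy_eq_coll {a n : ℕ} (p : Fin n → ℕ) (hcop : ∀ i, Nat.Coprime (p i) a) :
    energy (univ : Finset (Finset (Fin n))) (fun A => ∏ c ∈ A, p c) a = coll a p := by
  classical
  unfold energy coll
  congr 1
  ext q
  rw [Finset.mem_filter, Finset.mem_filter]
  simp only [Finset.mem_product, Finset.mem_univ, and_self, true_and]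
  exact ⟨fun h => ⟨hcop, h⟩, fun h => h.2⟩

lemma norm_ghat_fam_sq {n a : ℕ} (ha : 0 < a) {ω : ℂ} (hω : IsPrimitiveRoot ω a)
    (P : Fin 8 → Fin n → ℕ) (i i' : Fin 8) (hcop : ∀ i c, Nat.Coprime (P i c) a) :
    ‖ghat (fam P i i') ω‖ ^ 2 ≤ (a:ℝ) * coll a (P i) * coll a (P i') := by
  rw [ghat_fam, ← energy_eq_coll (P i) (hcop i), ← energy_eq_coll (P i') (hcop i')]
  exact bilinear ha hω univ univ _ _

lemma forall2_mem {xs : List ℕ} {L : List (Multiset ℕ)}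
    (h : List.Forall₂ (fun x M => x ∈ M) xs L) : ∀ x ∈ xs, ∃ M ∈ L, x ∈ M := by
  induction h with
  | nil => simp
  | cons hab _ ih =>
    intro x hx
    rcases List.mem_cons.1 hx with rfl | hx
    · exact ⟨_, List.mem_cons_self, hab⟩
    · obtain ⟨M, hM, hxM⟩ := ih x hx
      exact ⟨M, List.mem_cons_of_mem _ hM, hxM⟩

/-- The multiset `{1, ..., Z}`. -/
noncomputable def famZ (Z : ℕ) : Multiset ℕ := (range Z).val.map (fun m => m + 1)

lemma card_famZ (Z : ℕ) : Multiset.card (famZ Z) = Z := by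
  simp [famZ]

lemma ghat_famZ (Z : ℕ) (ω : ℂ) : ghat (famZ Z) ω = ω * ∑ m ∈ range Z, ω ^ m := by
  unfold ghat famZ
  rw [Multiset.map_map, Finset.mul_sum]
  change ∑ m ∈ range Z, ω ^ (m + 1) = _
  refine Finset.sum_congr rfl fun m _ => ?_
  rw [pow_succ, mul_comm]

lemma fam_dvd {n : ℕ} (P : Fin 8 → Fin n → ℕ) {i i' : Fin 8} (hne : i ≠ i') {x : ℕ}
    (hx : x ∈ fam P i i') : x ∣ ∏ j, ∏ c, P j c := by
  classical
  unfold fam at hx
  obtain ⟨q, _, rfl⟩ := Multiset.mem_map.1 hx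
  have h1 : (∏ c ∈ q.1, P i c) ∣ ∏ c, P i c :=
    Finset.prod_dvd_prod_of_subset _ _ _ (Finset.subset_univ _)
  have h2 : (∏ c ∈ q.2, P i' c) ∣ ∏ c, P i' c :=
    Finset.prod_dvd_prod_of_subset _ _ _ (Finset.subset_univ _)
  have h3 : (∏ c, P i c) * (∏ c, P i' c) ∣ ∏ j, ∏ c, P j c := by
    have := Finset.prod_dvd_prod_of_subset {i, i'} univ (fun j => ∏ c, P j c)
      (Finset.subset_univ _)
    rwa [Finset.prod_pair hne] at this
  exact (mul_dvd_mul h1 h2).trans h3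

lemma fam_pos {n : ℕ} (P : Fin 8 → Fin n → ℕ) (hpos : ∀ i c, 0 < P i c) (i i' : Fin 8) {x : ℕ}
    (hx : x ∈ fam P i i') : 0 < x := by
  unfold fam at hx
  obtain ⟨q, _, rfl⟩ := Multiset.mem_map.1 hx
  exact Nat.mul_pos (Finset.prod_pos fun c _ => hpos i c) (Finset.prod_pos fun c _ => hpos i' c)

lemma gB_bound (n A2 X : ℕ) (P : Fin 8 → Fin n → ℕ) (hA2 : 3 ≤ A2)
    (hAssign : ∀ a ∈ Icc A2 X, a ^ 5 * ∏ i, coll a (P i) ≤ (4 ^ n) ^ 8)
    (R : ℕ) (hR : 1 ≤ R) (hRX : R ≤ X) (hGood : ∀ i c, Nat.Coprime (P i c) R)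
    {ω : ℂ} {a : ℕ} (hadvd : a ∣ R) (ha : A2 ≤ a) (hω : IsPrimitiveRoot ω a) :
    ‖ghat (fam P 0 1) ω * ghat (fam P 2 3) ω * ghat (fam P 4 5) ω * ghat (fam P 6 7) ω‖ ^ 2 * a ≤
      (((4 ^ n) ^ 4 : ℕ) : ℝ) ^ 2 := by
  have ha0 : 0 < a := lt_of_lt_of_le (by omega) ha
  have hcop : ∀ i c, Nat.Coprime (P i c) a := fun i c =>
    Nat.Coprime.coprime_dvd_right hadvd (hGood i c)
  have haX : a ≤ X := (Nat.le_of_dvd (by omega) hadvd).trans hRX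
  have hb := hAssign a (Finset.mem_Icc.2 ⟨ha, haX⟩)
  have h1 := norm_ghat_fam_sq ha0 hω P 0 1 hcop
  have h2 := norm_ghat_fam_sq ha0 hω P 2 3 hcop
  have h3 := norm_ghat_fam_sq ha0 hω P 4 5 hcop
  have h4 := norm_ghat_fam_sq ha0 hω P 6 7 hcop
  rw [Fin.prod_univ_eight] at hb
  generalize coll a (P 0) = c0 at *
  generalize coll a (P 1) = c1 at *
  generalize coll a (P 2) = c2 at *
  generalize coll a (P 3) = c3 at *
  generalize coll a (P 4) = c4 at *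
  generalize coll a (P 5) = c5 at *
  generalize coll a (P 6) = c6 at *
  generalize coll a (P 7) = c7 at *
  generalize ghat (fam P 0 1) ω = g1 at *
  generalize ghat (fam P 2 3) ω = g2 at *
  generalize ghat (fam P 4 5) ω = g3 at *
  generalize ghat (fam P 6 7) ω = g4 at *
  have hT : (((4 ^ n) ^ 4 : ℕ) : ℝ) ^ 2 = (((4 ^ n) ^ 8 : ℕ) : ℝ) := by
    push_cast
    ring
  rw [hT]
  have hb' : (a:ℝ) ^ 5 * (c0 * c1 * c2 * c3 * c4 * c5 * c6 * c7) ≤ (((4 ^ n) ^ 8 : ℕ) : ℝ) := by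
    exact_mod_cast hb
  have ha' : (0:ℝ) < a := by exact_mod_cast ha0
  calc ‖g1 * g2 * g3 * g4‖ ^ 2 * a
      = ‖g1‖ ^ 2 * ‖g2‖ ^ 2 * ‖g3‖ ^ 2 * ‖g4‖ ^ 2 * a := by
        rw [norm_mul, norm_mul, norm_mul]
        ring
    _ ≤ ((a:ℝ) * c0 * c1) * ((a:ℝ) * c2 * c3) * ((a:ℝ) * c4 * c5) * ((a:ℝ) * c6 * c7) * a := by
        gcongr
    _ = (a:ℝ) ^ 5 * (c0 * c1 * c2 * c3 * c4 * c5 * c6 * c7) := by ring
    _ ≤ _ := hb'

lemma list_psi (F0 F1 F2 F3 F4 : Multiset ℕ) (ω : ℂ) :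
    (([F0, F0, F0, F1, F2, F3, F4, F1, F2, F3, F4, F1, F2, F3, F4, F1, F2, F3, F4, F1, F2, F3, F4,
      F1, F2, F3, F4] : List (Multiset ℕ)).map (fun M => ghat M ω)).prod =
      (ghat F0 ω) ^ 3 * (ghat F1 ω * ghat F2 ω * ghat F3 ω * ghat F4 ω) ^ 6 := by
  simp only [List.map_cons, List.map_nil, List.prod_cons, List.prod_nil]
  generalize ghat F0 ω = a0
  generalize ghat F1 ω = a1
  generalize ghat F2 ω = a2
  generalize ghat F3 ω = a3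
  generalize ghat F4 ω = a4
  ring

lemma exists_xs (F0 F1 F2 F3 F4 : Multiset ℕ) {R : ℕ} {ζ : ℂ} (hR : 0 < R)
    (hζ : IsPrimitiveRoot ζ R)
    (hne : ∑ t ∈ range R, (ghat F0 (ζ ^ t)) ^ 3 *
      (ghat F1 (ζ ^ t) * ghat F2 (ζ ^ t) * ghat F3 (ζ ^ t) * ghat F4 (ζ ^ t)) ^ 6 ≠ 0) :
    ∃ xs : List ℕ, List.Forall₂ (fun x M => x ∈ M) xs
      ([F0, F0, F0, F1, F2, F3, F4, F1, F2, F3, F4, F1, F2, F3, F4, F1, F2, F3, F4, F1, F2, F3, F4,
      F1, F2, F3, F4] : List (Multiset ℕ)) ∧ R ∣ xs.sum := by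
  obtain ⟨xs, h1, h2⟩ := exists_choice hR hζ
    ([F0, F0, F0, F1, F2, F3, F4, F1, F2, F3, F4, F1, F2, F3, F4, F1, F2, F3, F4, F1, F2, F3, F4,
      F1, F2, F3, F4] : List (Multiset ℕ)) 0 (by
      simp only [list_psi, mul_zero, pow_zero, mul_one]
      exact hne)
  exact ⟨xs, h1, by simpa using h2⟩

lemma psi_fam_ne_zero (n A2 X : ℕ) (P : Fin 8 → Fin n → ℕ) (hA2 : 3 ≤ A2)
    (hAssign : ∀ a ∈ Icc A2 X, a ^ 5 * ∏ i, coll a (P i) ≤ (4 ^ n) ^ 8)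
    (R : ℕ) (hR : 1 ≤ R) (hRX : R ≤ X) (hGood : ∀ i c, Nat.Coprime (P i c) R)
    {ζ : ℂ} (hζ : IsPrimitiveRoot ζ R) :
    ∑ t ∈ range R, (ghat (famZ (A2 ^ 2)) (ζ ^ t)) ^ 3 *
      (ghat (fam P 0 1) (ζ ^ t) * ghat (fam P 2 3) (ζ ^ t) * ghat (fam P 4 5) (ζ ^ t) *
        ghat (fam P 6 7) (ζ ^ t)) ^ 6 ≠ 0 := by
  apply sum_psi_ne_zero (R := R) (A2 := A2) (T := (4 ^ n) ^ 4) (Z := A2 ^ 2) (ζ := ζ) (by omega)
    hζ hA2 rfl (by positivity) (fun ω => ghat (famZ (A2 ^ 2)) ω)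
    (fun ω => ghat (fam P 0 1) ω * ghat (fam P 2 3) ω * ghat (fam P 4 5) ω * ghat (fam P 6 7) ω)
  · rw [ghat_one, card_famZ]
  · rw [ghat_one, ghat_one, ghat_one, ghat_one, card_fam, card_fam, card_fam, card_fam]
    push_cast
    ring
  · intro ω a ha hω
    rw [ghat_famZ, norm_mul, hω.norm'_eq_one (by omega), one_mul]
    exact norm_sum_range_pow_le ha hω _
  · intro ω hω
    have := norm_ghat_le (famZ (A2 ^ 2)) hω
    rwa [card_famZ] at this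
  · intro ω hω
    rw [norm_mul, norm_mul, norm_mul]
    have h1 := norm_ghat_le (fam P 0 1) hω
    have h2 := norm_ghat_le (fam P 2 3) hω
    have h3 := norm_ghat_le (fam P 4 5) hω
    have h4 := norm_ghat_le (fam P 6 7) hω
    rw [card_fam] at h1 h2 h3 h4
    calc _ ≤ ((4 ^ n : ℕ) : ℝ) * ((4 ^ n : ℕ) : ℝ) * ((4 ^ n : ℕ) : ℝ) * ((4 ^ n : ℕ) : ℝ) := by
          gcongr
      _ = (((4 ^ n) ^ 4 : ℕ) : ℝ) := by
          push_cast
          ring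
  · intro ω a ha hadvd hω
    exact gB_bound n A2 X P hA2 hAssign R hR hRX hGood hadvd ha hω

/-- The main divisibility statement. -/
theorem U_main (n A2 X : ℕ) (P : Fin 8 → Fin n → ℕ) (hpos : ∀ i c, 0 < P i c) (hA2 : 3 ≤ A2)
    (hAssign : ∀ a ∈ Icc A2 X, a ^ 5 * ∏ i, coll a (P i) ≤ (4 ^ n) ^ 8)
    (R : ℕ) (hR : 1 ≤ R) (hRX : R ≤ X) (hGood : ∀ i c, Nat.Coprime (P i c) R) :
    ∃ xs : List ℕ, xs.length = 27 ∧
      (∀ x ∈ xs, 0 < x ∧ x ∣ (A2 ^ 2).factorial * ∏ j, ∏ c, P j c) ∧ R ∣ xs.sum := by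
  have hZ0 : 0 < A2 ^ 2 := by positivity
  obtain ⟨ζ, hζ⟩ : ∃ ζ : ℂ, IsPrimitiveRoot ζ R :=
    ⟨_, Complex.isPrimitiveRoot_exp R (by omega)⟩
  have hne := psi_fam_ne_zero n A2 X P hA2 hAssign R hR hRX hGood hζ
  obtain ⟨xs, hxs, hdvd⟩ := exists_xs _ _ _ _ _ (by omega) hζ hne
  refine ⟨xs, ?_, ?_, hdvd⟩
  · rw [hxs.length_eq]
    rfl
  · intro x hx
    obtain ⟨M, hM, hxM⟩ := forall2_mem hxs x hx
    have hfam : ∀ {i i' : Fin 8}, i ≠ i' → x ∈ fam P i i' →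
        0 < x ∧ x ∣ (A2 ^ 2).factorial * ∏ j, ∏ c, P j c := by
      intro i i' hne hxm
      exact ⟨fam_pos P hpos i i' hxm, Dvd.dvd.mul_left (fam_dvd P hne hxm) _⟩
    have hMall : M = famZ (A2 ^ 2) ∨ M = fam P 0 1 ∨ M = fam P 2 3 ∨ M = fam P 4 5 ∨
        M = fam P 6 7 := by
      simp only [List.mem_cons, List.not_mem_nil, or_false] at hM
      tauto
    rcases hMall with rfl | rfl | rfl | rfl | rfl
    · rw [famZ] at hxM
      obtain ⟨m, hm, rfl⟩ := Multiset.mem_map.1 hxM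
      have hm' : m < A2 ^ 2 := Finset.mem_range.1 hm
      exact ⟨by omega, Dvd.dvd.mul_right (Nat.dvd_factorial (by omega) hm') _⟩
    · exact hfam (by decide) hxM
    · exact hfam (by decide) hxM
    · exact hfam (by decide) hxM
    · exact hfam (by decide) hxM

end Vale.Agent.Lib.P012c
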