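import Mathlib
import Vale.Agent.Lib.P012c.Core
import Vale.Agent.Lib.P012c.Assign
import Vale.Agent.Lib.P012c.UMain
import Vale.Agent.Lib.P012c.Primes

/-!
The choice of parameters and the proof of the expansion for denominators up to `G0`.
-/

namespace Vale.Agent.Lib.P012c

open Finset

/-- Divisor chains in a product of bounded factors. -/
lemma chain_prod {ι : Type*} (s : Finset ι) (f : ι → ℕ) (Y : ℕ) (h1 : ∀ i ∈ s, 1 ≤ f i)
    (hY : ∀ i ∈ s, f i ≤ Y) :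
    ∀ v : ℕ, 1 ≤ v → v < ∏ i ∈ s, f i → ∃ e : ℕ, e ∣ ∏ i ∈ s, f i ∧ 1 ≤ e ∧ e ≤ v ∧ v < e * Y := by
  classical
  induction s using Finset.induction_on with
  | empty =>
    intro v hv hv2
    simp at hv2
    omega
  | insert a s ha ih =>
    intro v hv hv2
    rw [Finset.prod_insert ha] at hv2 ⊢
    by_cases hc : v < ∏ i ∈ s, f i
    · obtain ⟨e, h2, h3, h4, h5⟩ := ih (fun i hi => h1 i (Finset.mem_insert_of_mem hi))
        (fun i hi => hY i (Finset.mem_insert_of_mem hi)) v hv hc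
      exact ⟨e, Dvd.dvd.mul_left h2 _, h3, h4, h5⟩
    · push Not at hc
      have hpos : 0 < ∏ i ∈ s, f i := Finset.prod_pos fun i hi => h1 i (Finset.mem_insert_of_mem hi)
      refine ⟨∏ i ∈ s, f i, Dvd.intro_left _ rfl, hpos, hc, ?_⟩
      have h6 := hY a (Finset.mem_insert_self _ _)
      calc v < f a * ∏ i ∈ s, f i := hv2
        _ ≤ Y * ∏ i ∈ s, f i := Nat.mul_le_mul_right _ h6
        _ = (∏ i ∈ s, f i) * Y := Nat.mul_comm _ _

/-- Shifting an integer by a small amount makes it coprime to all the primes. -/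
lemma exists_good_shift {n B : ℕ} (P : Fin 8 → Fin n → ℕ) (hB : B = 8 * n)
    (hprime : ∀ i c, (P i c).Prime) (hbig : ∀ i c, B < P i c) (w : ℕ) (hw : B < w) :
    ∃ j ≤ B, ∀ i c, Nat.Coprime (P i c) (w - j) := by
  classical
  by_contra hcon
  push Not at hcon
  set T : Fin 8 × Fin n → Finset ℕ :=
    fun x => (range (B + 1)).filter (fun j => P x.1 x.2 ∣ w - j) with hT
  have hT1 : ∀ x, (T x).card ≤ 1 := by
    intro x
    rw [Finset.card_le_one]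
    intro j hj j' hj'
    obtain ⟨h1, h2⟩ := Finset.mem_filter.1 hj
    obtain ⟨h3, h4⟩ := Finset.mem_filter.1 hj'
    have h1' := Finset.mem_range.1 h1
    have h3' := Finset.mem_range.1 h3
    by_contra hne
    have hbx := hbig x.1 x.2
    rcases Nat.lt_or_gt_of_ne hne with hlt | hlt
    · have h5 : P x.1 x.2 ∣ (w - j) - (w - j') := Nat.dvd_sub h2 h4
      have h6 : (w - j) - (w - j') = j' - j := by omega
      rw [h6] at h5
      have h7 := Nat.le_of_dvd (by omega) h5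
      omega
    · have h5 : P x.1 x.2 ∣ (w - j') - (w - j) := Nat.dvd_sub h4 h2
      have h6 : (w - j') - (w - j) = j - j' := by omega
      rw [h6] at h5
      have h7 := Nat.le_of_dvd (by omega) h5
      omega
  have hsub : range (B + 1) ⊆ univ.biUnion T := by
    intro j hj
    have hj' := Finset.mem_range.1 hj
    obtain ⟨i, c, hic⟩ := hcon j (by omega)
    rw [Finset.mem_biUnion]
    refine ⟨(i, c), Finset.mem_univ _, Finset.mem_filter.2 ⟨hj, ?_⟩⟩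
    by_contra hnd
    exact hic ((Nat.Prime.coprime_iff_not_dvd (hprime i c)).2 hnd)
  have h1 := (Finset.card_le_card hsub).trans Finset.card_biUnion_le
  have h2 : ∑ x, (T x).card ≤ ∑ _x : Fin 8 × Fin n, 1 := Finset.sum_le_sum fun x _ => hT1 x
  simp only [Finset.sum_const, Finset.card_univ, Fintype.card_prod, Fintype.card_fin, smul_eq_mul,
    mul_one, Finset.card_range] at h1 h2
  omega

/-- The eighth moment bound. -/
lemma moment_bound (s m : ℕ) (hs : 1 ≤ s) (hm : 64 * m = 2 ^ s) (h32 : 32 * s ≤ 62 * m)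
    (U : Finset ℕ) (hprime : ∀ p ∈ U, p.Prime) (hY : ∀ p ∈ U, p ≤ 2 ^ (16 * s))
    (hU : 2 ^ (16 * s) ≤ 32 * s * U.card) (a : ℕ) (ha1 : (32 * s) ^ 8 ≤ a) (ha2 : a ≤ 2 ^ m) :
    (a:ℝ) ^ 7 * ((∑ p ∈ Fintype.piFinset (fun _ : Fin (2 ^ s) => U), coll a p : ℕ) : ℝ) ^ 8 ≤
      3 ^ 8 * ((U.card ^ (2 ^ s) * 4 ^ (2 ^ s) : ℕ) : ℝ) ^ 8 := by
  set n := 2 ^ s with hn
  set Y := 2 ^ (16 * s) with hYdef
  have hY1 : 1 < Y := Nat.one_lt_two_pow (by omega)
  have hYn : Y = n ^ 16 := by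
    rw [hYdef, hn, ← pow_mul, mul_comm]
  have hΛ : 1 ≤ 32 * s := by omega
  have ha3 : 2 ≤ a := by
    have h1 : (32 * s) ^ 8 ≥ 32 ^ 8 := Nat.pow_le_pow_left (by omega) 8
    have h2 : 2 ≤ 32 ^ 8 := by norm_num
    omega
  have ha0 : 0 < a := by omega
  set f := Nat.clog Y a with hf
  have hf1 : a ≤ Y ^ f := Nat.le_pow_clog hY1 a
  have hf0 : 1 ≤ f := Nat.clog_pos hY1 ha3
  have hf2 : Y ^ (f - 1) < a := Nat.pow_pred_clog_lt_self hY1 (by omega)
  have hfm : 16 * s * (f - 1) < m := by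
    have h1 : 2 ^ (16 * s * (f - 1)) < 2 ^ m := by
      calc 2 ^ (16 * s * (f - 1)) = Y ^ (f - 1) := by rw [hYdef, ← pow_mul]
        _ < a := hf2
        _ ≤ 2 ^ m := ha2
    exact (Nat.pow_lt_pow_iff_right (by norm_num)).1 h1
  have hfe : f = (f - 1) + 1 := by omega
  have hfΛ : f * (32 * s) ≤ n := by
    have e : f * (32 * s) = 2 * (16 * s * (f - 1)) + 32 * s := by
      conv_lhs => rw [hfe]
      ring
    rw [e]
    omega
  have hfn : f ≤ n := by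
    calc f = f * 1 := (Nat.mul_one f).symm
      _ ≤ f * (32 * s) := Nat.mul_le_mul_left _ hΛ
      _ ≤ n := hfΛ
  have hn2 : 2 ≤ n := by
    calc 2 = 2 ^ 1 := by norm_num
      _ ≤ 2 ^ s := Nat.pow_le_pow_right (by norm_num) hs
  have hbad : a * n ^ (2 * f) ≤ 2 ^ n := by
    have h1 : n ^ (2 * f) = 2 ^ (s * (2 * f)) := by rw [hn, ← pow_mul]
    have h2 : m + s * (2 * f) ≤ n := by
      have e : s * (2 * f) = 2 * (s * (f - 1)) + 2 * s := by
        conv_lhs => rw [hfe]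
        ring
      have e2 : 16 * s * (f - 1) = 16 * (s * (f - 1)) := by ring
      rw [e2] at hfm
      rw [e]
      omega
    calc a * n ^ (2 * f) ≤ 2 ^ m * 2 ^ (s * (2 * f)) := by
          rw [h1]
          exact Nat.mul_le_mul_right _ ha2
      _ = 2 ^ (m + s * (2 * f)) := by rw [pow_add]
      _ ≤ 2 ^ n := Nat.pow_le_pow_right (by norm_num) h2
  set K := f.factorial * (32 * s) ^ f with hK
  have hK1 : 1 ≤ K := Nat.mul_pos (Nat.factorial_pos _) (by positivity)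
  have hK8 : K ^ 8 ≤ a := by
    rcases Nat.lt_or_ge f 2 with hlt | hge
    · have hf1' : f = 1 := by omega
      rw [hK, hf1']
      simpa using ha1
    · have h1 : K ≤ n ^ f := by
        calc K ≤ f ^ f * (32 * s) ^ f := Nat.mul_le_mul_right _ (Nat.factorial_le_pow f)
          _ = (f * (32 * s)) ^ f := (mul_pow f (32 * s) f).symm
          _ ≤ n ^ f := Nat.pow_le_pow_left hfΛ f
      have h2 : n ^ (f * 8) ≤ n ^ (16 * (f - 1)) :=
        Nat.pow_le_pow_right (by omega) (by omega)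
      calc K ^ 8 ≤ (n ^ f) ^ 8 := Nat.pow_le_pow_left h1 8
        _ = n ^ (f * 8) := by rw [pow_mul]
        _ ≤ n ^ (16 * (f - 1)) := h2
        _ = Y ^ (f - 1) := by rw [hYn, pow_mul]
        _ ≤ a := hf2.le
  have hfirst := first_moment n a Y (32 * s) f U hprime hY hU ha0 hf1 hfn hn2 hbad
  exact moment_of_first a _ _ K ha0 hK1 hK8 hfirst

/-- The numerical condition on the parameter. -/
def Big (t : ℕ) : Prop :=
  (32 * (t + 6)) ^ 32 + 18 * (t + 6) + 24 ≤ 2 * 2 ^ t ∧ 34 * (t + 6) + 8 ≤ 2 ^ t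

/-- A good choice of eight tuples of primes exists. -/
lemma exists_primes (t : ℕ) (hBig : Big t) :
    ∃ P : Fin 8 → Fin (2 ^ (t + 6)) → ℕ,
      (∀ i c, (P i c).Prime) ∧ (∀ i c, 8 * 2 ^ (t + 6) < P i c) ∧
      (∀ i c, P i c ≤ 2 ^ (16 * (t + 6))) ∧
      ∀ a ∈ Icc ((32 * (t + 6)) ^ 8) (2 ^ 2 ^ t),
        a ^ 5 * ∏ i, coll a (P i) ≤ (4 ^ 2 ^ (t + 6)) ^ 8 := by
  set s := t + 6 with hs
  have hs1 : 1 ≤ s := by omega
  obtain ⟨hU1, hU2⟩ := prime_universe_large s hs1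
  set U := primeUniverse (8 * 2 ^ s) (2 ^ (16 * s)) with hU
  have hprime : ∀ p ∈ U, p.Prime := fun p hp => (Finset.mem_filter.1 hp).2
  have hY : ∀ p ∈ U, p ≤ 2 ^ (16 * s) := fun p hp =>
    (Finset.mem_Ioc.1 (Finset.mem_filter.1 hp).1).2
  have hB : ∀ p ∈ U, 8 * 2 ^ s < p := fun p hp =>
    (Finset.mem_Ioc.1 (Finset.mem_filter.1 hp).1).1
  have hm : 64 * 2 ^ t = 2 ^ s := by
    rw [hs, pow_add]
    ring
  have h32 : 32 * s ≤ 62 * 2 ^ t := by
    have := hBig.2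
    omega
  have hA2 : 3 ^ 8 + 1 ≤ (32 * s) ^ 8 := by
    have h1 : (32 * s) ^ 8 ≥ 32 ^ 8 := Nat.pow_le_pow_left (by omega) 8
    have h2 : 3 ^ 8 + 1 ≤ 32 ^ 8 := by norm_num
    omega
  obtain ⟨P, hP1, hP2⟩ := exists_assignment (2 ^ s) (2 ^ 2 ^ t) ((32 * s) ^ 8) U hU2 hA2 (by
    intro a ha
    obtain ⟨h1, h2⟩ := Finset.mem_Icc.1 ha
    exact moment_bound s (2 ^ t) hs1 hm h32 U hprime hY hU1 a h1 h2)
  refine ⟨P, ?_, ?_, ?_, hP2⟩
  · intro i c
    exact hprime _ (Fintype.mem_piFinset.1 (hP1 i) c)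
  · intro i c
    exact hB _ (Fintype.mem_piFinset.1 (hP1 i) c)
  · intro i c
    exact hY _ (Fintype.mem_piFinset.1 (hP1 i) c)

/-- The numerical facts on the exponents. -/
lemma exponent_facts (t : ℕ) (hBig : Big t) :
    2 * (2 ^ t - 17 * (t + 6) - 4) ≥ 2 ^ t ∧
      2 ^ t = (2 ^ t - 17 * (t + 6) - 4) + 17 * (t + 6) + 4 := by
  have h := hBig.2
  omega

/-- The factorial is small compared with `X * G0`. -/
lemma factorial_small (t : ℕ) (hBig : Big t) :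
    2 ^ (t + 6 + 20) * (((32 * (t + 6)) ^ 8) ^ 2).factorial ≤
      2 ^ 2 ^ t * 2 ^ (2 ^ t - 17 * (t + 6) - 4) := by
  set x := 32 * (t + 6) with hx
  set Z := (x ^ 8) ^ 2 with hZ
  have hZZ : Z * Z = x ^ 32 := by
    rw [hZ]
    ring
  have h1 : Z.factorial ≤ 2 ^ (Z * Z) := by
    calc Z.factorial ≤ Z ^ Z := Nat.factorial_le_pow Z
      _ ≤ (2 ^ Z) ^ Z := Nat.pow_le_pow_left Nat.lt_two_pow_self.le Z
      _ = 2 ^ (Z * Z) := by rw [pow_mul]
  rw [hZZ] at h1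
  obtain ⟨h2, h3⟩ := hBig
  rw [← hx] at h2
  have h4 : t + 6 + 20 + x ^ 32 ≤ 2 ^ t + (2 ^ t - 17 * (t + 6) - 4) := by omega
  calc 2 ^ (t + 6 + 20) * Z.factorial ≤ 2 ^ (t + 6 + 20) * 2 ^ (x ^ 32) :=
        Nat.mul_le_mul_left _ h1
    _ = 2 ^ (t + 6 + 20 + x ^ 32) := (pow_add 2 (t + 6 + 20) (x ^ 32)).symm
    _ ≤ 2 ^ (2 ^ t + (2 ^ t - 17 * (t + 6) - 4)) := Nat.pow_le_pow_right (by norm_num) h4
    _ = 2 ^ 2 ^ t * 2 ^ (2 ^ t - 17 * (t + 6) - 4) := pow_add 2 (2 ^ t) _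

/-- The product of all the primes is small compared with `G0 ^ K`. -/
lemma prod_le_G0_pow (t : ℕ) (hBig : Big t) (P : Fin 8 → Fin (2 ^ (t + 6)) → ℕ)
    (hleY : ∀ i c, P i c ≤ 2 ^ (16 * (t + 6))) :
    ∏ j, ∏ c, P j c ≤ (2 ^ (2 ^ t - 17 * (t + 6) - 4)) ^ (16384 * (t + 6)) := by
  obtain ⟨h2, _⟩ := exponent_facts t hBig
  have h1 : ∏ j, ∏ c, P j c ≤ ((2 ^ (16 * (t + 6))) ^ (2 ^ (t + 6))) ^ 8 := by
    calc ∏ j, ∏ c, P j c ≤ ∏ _j : Fin 8, (2 ^ (16 * (t + 6))) ^ (2 ^ (t + 6)) := by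
          refine Finset.prod_le_prod' fun j _ => ?_
          have := Finset.prod_le_pow_card (univ : Finset (Fin (2 ^ (t + 6)))) (P j) _
            (fun c _ => hleY j c)
          simpa using this
      _ = _ := by simp
  refine h1.trans ?_
  rw [← pow_mul, ← pow_mul, ← pow_mul]
  apply Nat.pow_le_pow_right (by norm_num)
  set g := 2 ^ t - 17 * (t + 6) - 4 with hg
  have e : 2 ^ (t + 6) = 64 * 2 ^ t := by
    rw [pow_add]
    ring
  rw [e]
  calc 16 * (t + 6) * (64 * 2 ^ t * 8) = 8192 * (t + 6) * 2 ^ t := by ring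
    _ ≤ 8192 * (t + 6) * (2 * g) := Nat.mul_le_mul_left _ h2
    _ = g * (16384 * (t + 6)) := by ring

lemma hB3_fact (t g : ℕ) (hg3 : 2 ^ t = g + 17 * (t + 6) + 4) :
    (8 * 2 ^ (t + 6) + 1) * (2 ^ g * 2 ^ (16 * (t + 6))) ≤ 2 ^ 2 ^ t := by
  have h1 : 8 * 2 ^ (t + 6) + 1 ≤ 2 ^ (t + 6 + 4) := by
    have h2 : 2 ^ (t + 6 + 4) = 16 * 2 ^ (t + 6) := by
      rw [pow_add 2 (t + 6) 4]
      ring
    have h3 : 1 ≤ 2 ^ (t + 6) := Nat.one_le_two_pow
    omega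
  calc (8 * 2 ^ (t + 6) + 1) * (2 ^ g * 2 ^ (16 * (t + 6)))
      ≤ 2 ^ (t + 6 + 4) * (2 ^ g * 2 ^ (16 * (t + 6))) := Nat.mul_le_mul_right _ h1
    _ = 2 ^ (g + 17 * (t + 6) + 4) := by
        rw [← pow_add, ← pow_add]
        congr 1
        ring
    _ = 2 ^ 2 ^ t := by rw [← hg3]

lemma hE_fact (t : ℕ) : 27 * ((t + 6) + 16384 * (t + 6) + 4) ≤ 2 ^ (t + 6 + 20) := by
  have h1 : t + 6 < 2 ^ (t + 6) := Nat.lt_two_pow_self
  have h2 : 2 ^ (t + 6 + 20) = 2 ^ (t + 6) * 2 ^ 20 := pow_add 2 (t + 6) 20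
  have h3 : (2:ℕ) ^ 20 = 1048576 := by norm_num
  rw [h2, h3]
  omega

/-- The expansion for denominators up to `G0`. -/
theorem expansion_of_big (t : ℕ) (hBig : Big t) (a b : ℕ) (ha : 1 ≤ a) (hab : a < b)
    (hb : b ≤ 2 ^ (2 ^ t - 17 * (t + 6) - 4)) :
    ∃ S : Finset ℕ, (∀ n ∈ S, 2 ≤ n) ∧
      S.card ≤ (t + 6) + 16384 * (t + 6) + 1 + 27 * ((t + 6) + 16384 * (t + 6) + 4) ∧
      ∑ n ∈ S, (1:ℚ)/n = (a:ℚ)/b := by
  obtain ⟨P, hprime, hbig, hleY, hAssign⟩ := exists_primes t hBig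
  obtain ⟨hg2, hg3⟩ := exponent_facts t hBig
  have hfact := factorial_small t hBig
  have hprodle := prod_le_G0_pow t hBig P hleY
  generalize hg : 2 ^ t - 17 * (t + 6) - 4 = g at *
  generalize hA2 : (32 * (t + 6)) ^ 8 = A2 at *
  have hA23 : 3 ≤ A2 := by
    have h1 : (32 * (t + 6)) ^ 8 ≥ 32 ^ 8 := Nat.pow_le_pow_left (by omega) 8
    have h2 : 3 ≤ 32 ^ 8 := by norm_num
    omega
  set M := ∏ j, ∏ c, P j c with hM
  have hPpos : ∀ i c, 0 < P i c := fun i c => (hprime i c).pos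
  have hMpos : 0 < M := Finset.prod_pos fun j _ => Finset.prod_pos fun c _ => hPpos j c
  set N0 := (A2 ^ 2).factorial * M with hN0
  have hN0pos : 0 < N0 := Nat.mul_pos (Nat.factorial_pos _) hMpos
  have hB3 := hB3_fact t g hg3
  have hEbound := hE_fact t
  refine core_main a b (t + 6 + 20) 27 N0 M (2 ^ 2 ^ t) (2 ^ (16 * (t + 6))) (2 ^ g)
    (8 * 2 ^ (t + 6)) (t + 6) (16384 * (t + 6)) (fun R => ∀ i c, Nat.Coprime (P i c) R) ha hab
    (hb.trans (Nat.le_mul_of_pos_right _ (by positivity))) Nat.one_le_two_pow Nat.one_le_two_pow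
    (by positivity) hN0pos ?_ ?_ ?_ ?_ ?_ ?_ ?_ ?_ hB3 hEbound
  · -- the chain
    intro v hv hvM
    have hMe : M = ∏ x : Fin 8 × Fin (2 ^ (t + 6)), P x.1 x.2 :=
      (Fintype.prod_prod_type' (fun j c => P j c)).symm
    rw [hMe] at hvM
    obtain ⟨e, h1, h2, h3, h4⟩ := chain_prod univ (fun x : Fin 8 × Fin (2 ^ (t + 6)) => P x.1 x.2)
      (2 ^ (16 * (t + 6))) (fun x _ => hPpos x.1 x.2) (fun x _ => hleY x.1 x.2) v hv hvM
    refine ⟨e, ?_, h2, h3, h4⟩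
    rw [← hMe] at h1
    rw [hN0]
    exact Dvd.dvd.mul_left (Dvd.dvd.mul_left h1 _) _
  · -- `N ≤ M X G0`
    rw [hN0]
    calc 2 ^ (t + 6 + 20) * ((A2 ^ 2).factorial * M)
        = (2 ^ (t + 6 + 20) * (A2 ^ 2).factorial) * M := by ring
      _ ≤ (2 ^ 2 ^ t * 2 ^ g) * M := Nat.mul_le_mul_right _ hfact
      _ = M * 2 ^ 2 ^ t * 2 ^ g := by ring
  · -- `G0 ≤ 2 ^ 2 ^ s`
    apply Nat.pow_le_pow_right (by norm_num)
    have e : 2 ^ (t + 6) = 64 * 2 ^ t := by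
      rw [pow_add]
      ring
    omega
  · -- `N ≤ X G0 ^ (K + 1)`
    rw [hN0]
    calc 2 ^ (t + 6 + 20) * ((A2 ^ 2).factorial * M)
        = (2 ^ (t + 6 + 20) * (A2 ^ 2).factorial) * M := by ring
      _ ≤ (2 ^ 2 ^ t * 2 ^ g) * (2 ^ g) ^ (16384 * (t + 6)) := Nat.mul_le_mul hfact hprodle
      _ = 2 ^ 2 ^ t * (2 ^ g) ^ (16384 * (t + 6) + 1) := by
          rw [pow_succ]
          ring
  · -- `B ≤ X`
    have h1 : 1 ≤ 2 ^ g * 2 ^ (16 * (t + 6)) := Nat.mul_pos (by positivity) (by positivity)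
    calc 8 * 2 ^ (t + 6) ≤ (8 * 2 ^ (t + 6) + 1) * 1 := by omega
      _ ≤ (8 * 2 ^ (t + 6) + 1) * (2 ^ g * 2 ^ (16 * (t + 6))) := Nat.mul_le_mul_left _ h1
      _ ≤ _ := hB3
  · -- the main divisibility
    intro R hR hRX hGood
    obtain ⟨xs, h1, h2, h3⟩ := U_main (2 ^ (t + 6)) A2 (2 ^ 2 ^ t) P hPpos hA23 hAssign R hR hRX hGood
    refine digitRep_of_dvd_sum (t + 6 + 20) 27 N0 R hN0pos hR xs ?_ h1.le h2 h3
    intro hnil
    rw [hnil] at h1
    simp at h1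
  · -- small integers are good
    intro m hm1 hm2 i c
    apply (Nat.Prime.coprime_iff_not_dvd (hprime i c)).2
    intro hdvd
    have h1 := Nat.le_of_dvd hm1 hdvd
    have h2 := hbig i c
    omega
  · -- shifts
    intro w hw
    exact exists_good_shift P (by ring) hprime hbig w hw

end Vale.Agent.Lib.P012c
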