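import Mathlib
import Vale.Agent.Lib.P012c.Params

/-!
The final statement: every `a / b` with `0 < a < b` is a sum of `O(log log b)` distinct unit
fractions.
-/

namespace Vale.Agent.Lib.P012c

open Finset Filter

/-- All large parameters satisfy the numerical condition. -/
lemma exists_big : ∃ T : ℕ, ∀ t ≥ T, Big t := by
  have h1 := tendsto_pow_const_div_const_pow_of_one_lt 32 (r := (2:ℝ)) (by norm_num)
  have h2 : ∀ᶠ t : ℕ in atTop, (t:ℝ) ^ 32 / 2 ^ t < 1 / 2 ^ 192 :=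
    h1.eventually (gt_mem_nhds (by positivity))
  obtain ⟨T, hT⟩ := eventually_atTop.1 h2
  refine ⟨max T 6, fun t ht => ?_⟩
  have ht1 : T ≤ t := le_trans (le_max_left _ _) ht
  have ht2 : 6 ≤ t := le_trans (le_max_right _ _) ht
  have h3 := hT t ht1
  have h4 : 2 ^ 192 * t ^ 32 ≤ 2 ^ t := by
    have h5 : ((t:ℝ) ^ 32) * 2 ^ 192 < 2 ^ t := by
      rw [div_lt_div_iff₀ (by positivity) (by positivity)] at h3
      linarith
    have h6 : ((2 ^ 192 * t ^ 32 : ℕ) : ℝ) ≤ ((2 ^ t : ℕ) : ℝ) := by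
      push_cast
      linarith
    exact_mod_cast h6
  obtain ⟨x, hx⟩ : ∃ x, x = 32 * (t + 6) := ⟨_, rfl⟩
  have hx1 : 1 ≤ x := by omega
  have hx2 : x ≤ 2 ^ 6 * t := by
    rw [hx]
    have : (2:ℕ) ^ 6 = 64 := by norm_num
    rw [this]
    omega
  have h7 : x ^ 32 ≤ 2 ^ t := by
    calc x ^ 32 ≤ (2 ^ 6 * t) ^ 32 := Nat.pow_le_pow_left hx2 32
      _ = 2 ^ 192 * t ^ 32 := by
          rw [mul_pow, ← pow_mul]
      _ ≤ 2 ^ t := h4
  have h8 : x ^ 2 ≤ x ^ 32 := Nat.pow_le_pow_right hx1 (by norm_num)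
  have h9 : 2 * x ≤ x ^ 2 := by
    have h2x : 2 ≤ x := by omega
    calc 2 * x ≤ x * x := Nat.mul_le_mul_right _ h2x
      _ = x ^ 2 := (pow_two x).symm
  have h10 : x ≤ x ^ 32 := by
    calc x = x * 1 := (Nat.mul_one x).symm
      _ ≤ x * x := Nat.mul_le_mul_left _ hx1
      _ = x ^ 2 := (pow_two x).symm
      _ ≤ x ^ 32 := h8
  refine ⟨?_, ?_⟩
  · rw [← hx]
    generalize x ^ 32 = w at *
    generalize 2 ^ t = u at *
    omega
  · generalize x ^ 32 = w at *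
    generalize 2 ^ t = u at *
    omega

lemma card_arith (c t : ℕ)
    (h : c ≤ (t + 6) + 16384 * (t + 6) + 1 + 27 * ((t + 6) + 16384 * (t + 6) + 4)) :
    c ≤ 458780 * (t + 6) + 109 := by
  have e : (t + 6) + 16384 * (t + 6) + 1 + 27 * ((t + 6) + 16384 * (t + 6) + 4) =
      458780 * (t + 6) + 109 := by ring
  rwa [e] at h

/-- The main theorem. -/
theorem main_thm : ∃ C : ℝ, ∃ b0 : ℕ, ∀ b ≥ b0, ∀ a : ℕ, 1 ≤ a → a < b →
    ∃ S : Finset ℕ, (∀ n ∈ S, 2 ≤ n) ∧ (S.card : ℝ) ≤ C * Real.log (Real.log b) ∧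
      ∑ n ∈ S, (1:ℚ)/n = (a:ℚ)/b := by
  obtain ⟨T, hT⟩ := exists_big
  refine ⟨458780 * ((T:ℝ) + 12) + 109, ⌈Real.exp (Real.exp 1)⌉₊, ?_⟩
  intro b hb a ha hab
  have hb1 : Real.exp (Real.exp 1) ≤ (b:ℝ) := (Nat.le_ceil _).trans (by exact_mod_cast hb)
  have hbpos : (0:ℝ) < b := lt_of_lt_of_le (Real.exp_pos _) hb1
  have hlogb : Real.exp 1 ≤ Real.log b := by
    rw [Real.le_log_iff_exp_le hbpos]
    exact hb1
  have hlogbpos : 0 < Real.log b := lt_of_lt_of_le (Real.exp_pos _) hlogb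
  set x := Real.log (Real.log b) with hx
  have hx1 : 1 ≤ x := by
    rw [hx, Real.le_log_iff_exp_le hlogbpos]
    exact hlogb
  have hL1' : x ≤ ⌈x⌉₊ := Nat.le_ceil x
  have hL2' : ((⌈x⌉₊ : ℕ) : ℝ) < x + 1 := Nat.ceil_lt_add_one (by linarith)
  obtain ⟨L, hL⟩ : ∃ L, L = ⌈x⌉₊ := ⟨_, rfl⟩
  rw [← hL] at hL1' hL2'
  have hL1 : x ≤ L := hL1'
  have hL2 : (L:ℝ) < x + 1 := hL2'
  obtain ⟨t, ht⟩ : ∃ t, t = T + 2 * L + 2 := ⟨_, rfl⟩
  have hBig : Big t := hT t (by omega)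
  obtain ⟨hg2, _⟩ := exponent_facts t hBig
  -- the denominator is in range
  have hlog2 : (1:ℝ) / 2 ≤ Real.log 2 := by
    have := Real.log_two_gt_d9
    linarith
  have hexp4 : Real.exp 1 ≤ 4 := by
    have := Real.exp_one_lt_d9
    linarith
  have hlogb2 : Real.log b ≤ (2:ℝ) ^ (2 * L) := by
    have h1 : Real.log b = Real.exp x := by
      rw [hx, Real.exp_log hlogbpos]
    rw [h1]
    calc Real.exp x ≤ Real.exp L := Real.exp_le_exp.2 hL1
      _ = (Real.exp 1) ^ L := by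
          rw [← Real.exp_nat_mul]
          simp
      _ ≤ 4 ^ L := pow_le_pow_left₀ (Real.exp_pos _).le hexp4 L
      _ = (2:ℝ) ^ (2 * L) := by
          rw [pow_mul]
          norm_num
  have hb2 : b ≤ 2 ^ (2 ^ t - 17 * (t + 6) - 4) := by
    have h1 : Real.log b ≤ Real.log ((2:ℝ) ^ (2 ^ t - 17 * (t + 6) - 4)) := by
      rw [Real.log_pow]
      obtain ⟨g, hg⟩ : ∃ g, g = 2 ^ t - 17 * (t + 6) - 4 := ⟨_, rfl⟩
      rw [← hg] at hg2 ⊢
      have h2 : (2:ℝ) ^ t ≤ 2 * (g:ℝ) := by exact_mod_cast hg2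
      have h3 : (2:ℝ) ^ t = 2 ^ (2 * L) * 4 * 2 ^ T := by
        rw [ht, pow_add, pow_add]
        norm_num
        ring
      have h4 : (1:ℝ) ≤ 2 ^ T := one_le_pow₀ (by norm_num)
      have h5 : (0:ℝ) < 2 ^ (2 * L) := by positivity
      have h6 : (2:ℝ) ^ (2 * L) * 4 ≤ (2:ℝ) ^ t := by
        rw [h3]
        have h8 : (0:ℝ) < 2 ^ (2 * L) * 4 := by positivity
        nlinarith
      have h7 : (2:ℝ) ^ (2 * L) * 2 ≤ (g:ℝ) := by linarith
      calc Real.log b ≤ (2:ℝ) ^ (2 * L) := hlogb2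
        _ = ((2:ℝ) ^ (2 * L) * 2) * (1 / 2) := by ring
        _ ≤ (g:ℝ) * Real.log 2 := by
            apply mul_le_mul h7 hlog2 (by norm_num) (by positivity)
    have h2 := (Real.log_le_log_iff hbpos (by positivity)).1 h1
    exact_mod_cast h2
  obtain ⟨S, hS1, hS2, hS3⟩ := expansion_of_big t hBig a b ha hab hb2
  refine ⟨S, hS1, ?_, hS3⟩
  have h3 : (S.card : ℝ) ≤ 458780 * ((t:ℝ) + 6) + 109 := by
    have : S.card ≤ 458780 * (t + 6) + 109 := card_arith _ t hS2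
    exact_mod_cast this
  have h4 : (t:ℝ) = T + 2 * L + 2 := by
    rw [ht]
    push_cast
    ring
  rw [h4] at h3
  have hT0 : (0:ℝ) ≤ T := by positivity
  have h5 : (T:ℝ) + 2 * L + 2 + 6 ≤ (T + 12) * x := by nlinarith
  nlinarith

end Vale.Agent.Lib.P012c
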